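import Vale.Agent.P330.H797.DynDefs

/-!
# Transport of block systems along a code of the blocks

`BCode Bl Wd`: a code of blocks by words, with a decoder that accepts only canonical words.
`BSys.tr`: the block system on words; `BFacts.tr`: it has the same facts, with the same constants.
-/

namespace Vale.Agent.P330.W.H912

open H797

/-- A code of the blocks `Bl` by the words `Wd`; the decoder accepts only canonical words. -/
structure BCode (Bl Wd : Type) where
  code : Bl → Wd
  dc : Wd → Option Bl
  /-- a default block -/
  d : Bl
  code_dc : ∀ w b, dc w = some b → code b = w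

variable {Cf Om Bl Wd : Type} {K : ℕ}

/-- The block system on the code words: words that do not decode fail the test and count as missing
in the decoder. -/
def trSys (B : BSys Cf Om Bl K) (c : BCode Bl Wd) : BSys Cf Om Wd K where
  wr := B.wr
  own := B.own
  word w h := c.code (B.word w h)
  Valid := B.Valid
  step := B.step
  w0 := B.w0
  chi h v := ∃ u : Fin K → Bl, (∀ i, c.dc (v i) = some (u i)) ∧ B.chi h u
  eta h v := c.code (B.eta h fun i => (v i).bind c.dc)
  phi z h v := c.code (B.phi z h fun i => (c.dc (v i)).getD c.d)

theorem trFacts [Fintype Om] {B : BSys Cf Om Bl K} {c : BCode Bl Wd} {κ : ℝ → ℝ} {θ ρ₁ c₀ : ℝ}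
    (F : BFacts B κ θ ρ₁ c₀) (hc : ∀ w h, c.dc (c.code (B.word w h)) = some (B.word w h)) :
    BFacts (trSys B c) κ θ ρ₁ c₀ where
  wr_own := F.wr_own
  complete w hw h := ⟨_, fun i => hc w _, F.complete w hw h⟩
  sound ρ hρ X hX := by
    have key : ∀ h, (∃ v : Fin K → Wd, (∀ i, X (B.wr i h) = some (v i)) ∧ (trSys B c).chi h v) →
        ∃ v : Fin K → Bl, (∀ i, (X (B.wr i h)).bind c.dc = some (v i)) ∧ B.chi h v := by
      rintro h ⟨v, hv, u, hu, hchi⟩
      exact ⟨u, fun i => by rw [hv i]; exact hu i, hchi⟩
    obtain ⟨w, hw, hw'⟩ := F.sound ρ hρ (fun h => (X h).bind c.dc) (le_trans (by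
      unfold fr
      refine div_le_div_of_nonneg_right ?_ (Nat.cast_nonneg _)
      exact_mod_cast Finset.card_le_card fun h hh => by
        simp only [Finset.mem_filter, Finset.mem_univ, true_and] at hh ⊢
        exact fun h' => hh (key h h')) hX)
    refine ⟨w, hw, le_trans ?_ hw'⟩
    unfold fr
    refine div_le_div_of_nonneg_right ?_ (Nat.cast_nonneg _)
    exact_mod_cast Finset.card_le_card fun h hh => by
      simp only [Finset.mem_filter, Finset.mem_univ, true_and] at hh ⊢
      intro h'
      apply hh
      rcases hX' : X h with _ | x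
      · rw [hX'] at h'
        simp at h'
      · rw [hX'] at h'
        show some x = some (c.code (B.word w h))
        rw [c.code_dc x _ h']
  dist w w' hne := by
    refine le_trans (F.dist w w' hne) ?_
    unfold fr
    refine div_le_div_of_nonneg_right ?_ (Nat.cast_nonneg _)
    exact_mod_cast Finset.card_le_card fun h hh => by
      simp only [Finset.mem_filter, Finset.mem_univ, true_and] at hh ⊢
      intro h'
      apply hh
      have h1 := hc w h
      have h2 := hc w' h
      have h3 : c.code (B.word w h) = c.code (B.word w' h) := h'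
      rw [h3, h2] at h1
      exact (Option.some.inj h1).symm
  contract A hA := by
    obtain ⟨A', hA', h⟩ := F.contract A hA
    refine ⟨A', hA', fun x hx w v hv => ?_⟩
    show c.code _ = c.code _
    rw [h x hx w _ fun i hi => ?_]
    rw [hv i hi]
    exact hc w _
  phi_word z w hw h := by
    show c.code (B.phi z h fun i => (c.dc (c.code (B.word w (B.wr i h)))).getD _) = c.code _
    show _ = c.code (B.word (B.step z w) h)
    rw [← F.phi_word z w hw h]
    congr 2
    funext i
    rw [hc]
    rfl
  valid0 := F.valid0
  inv := F.inv
  start := F.start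

end Vale.Agent.P330.W.H912
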