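import Vale.Agent.P330.W.H912.EncI
import Vale.Agent.P330.W.H912.Tr

/-!
# The fixed-length format of the blocks of a register system

A block (bit `rel`, two stacks of at most `n` symbols) is written as
`true :: rel :: (slots of the stack false) ++ (slots of the stack true)`; there are `n` slots for
each stack, a used slot is `true :: (the sl bits of the symbol)`, an unused slot is `0^(sl+1)`. The
length is `2 + 2 * (n * (sl + 1))`.
-/

namespace Vale.Agent.P330.W.H912

open Vale.Agent.Lib.PolyTime Function H797

/-! ### Chunks -/

/-- The first `n` chunks of length `c` of a word. -/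
def chunks {T : Type*} (c n : ℕ) (w : List T) : List (List T) :=
  (List.range n).map fun j => (w.drop (j * c)).take c

theorem chunks_zero {T : Type*} (c : ℕ) (w : List T) : chunks c 0 w = [] := rfl

theorem chunks_succ {T : Type*} (c n : ℕ) (w : List T) :
    chunks c (n + 1) w = w.take c :: chunks c n (w.drop c) := by
  unfold chunks
  rw [List.range_succ_eq_map, List.map_cons, List.map_map]
  simp only [zero_mul, List.drop_zero, List.cons.injEq, true_and]
  refine List.map_congr_left fun j _ => ?_
  simp only [comp_apply, List.drop_drop]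
  congr 2
  rw [Nat.succ_eq_add_one, add_mul, one_mul, add_comm]

theorem length_chunks {T : Type*} (c n : ℕ) (w : List T) : (chunks c n w).length = n := by
  simp [chunks]

theorem chunks_flatten {T : Type*} {c : ℕ} : ∀ (L : List (List T)) (r : List T),
    (∀ s ∈ L, s.length = c) → chunks c L.length (L.flatten ++ r) = L
  | [], _, _ => rfl
  | s :: L, r, h => by
    have hs : s.length = c := h s List.mem_cons_self
    rw [List.length_cons, chunks_succ, List.flatten_cons, List.append_assoc,
      List.take_left' hs, List.drop_left' hs,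
      chunks_flatten L r fun t ht => h t (List.mem_cons_of_mem _ ht)]

/-! ### Stacks -/

/-- The slots of a stack. -/
def codeStk (n sl : ℕ) (l : List Word) : Word :=
  ((l.map fun s => true :: s).flatten ++ List.replicate (n * (sl + 1)) false).take (n * (sl + 1))

/-- The stack with the given slots. -/
def rawStk (n sl : ℕ) (w : Word) : List Word :=
  ((chunks (sl + 1) n w).filter fun c => c.headD false).map List.tail

theorem length_codeStk (n sl : ℕ) (l : List Word) : (codeStk n sl l).length = n * (sl + 1) := by
  unfold codeStk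
  rw [List.length_take, List.length_append, List.length_replicate]
  omega

theorem length_rawStk_le (n sl : ℕ) (w : Word) : (rawStk n sl w).length ≤ n := by
  unfold rawStk
  rw [List.length_map]
  exact (List.length_filter_le _ _).trans (length_chunks _ _ _).le

theorem length_flatten_of {T : Type*} {c : ℕ} : ∀ L : List (List T), (∀ s ∈ L, s.length = c) →
    L.flatten.length = L.length * c
  | [], _ => by simp
  | s :: L, h => by
    rw [List.flatten_cons, List.length_append, h s List.mem_cons_self,
      length_flatten_of L fun t ht => h t (List.mem_cons_of_mem _ ht), List.length_cons]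
    ring

theorem flatten_replicate_false (k c : ℕ) :
    (List.replicate k (List.replicate c false)).flatten = List.replicate (k * c) false := by
  rw [List.eq_replicate_iff]
  constructor
  · rw [length_flatten_of (c := c)]
    · rw [List.length_replicate]
    · intro s hs; rw [List.eq_of_mem_replicate hs, List.length_replicate]
  · intro b hb
    obtain ⟨l, hl, hb⟩ := List.mem_flatten.1 hb
    rw [List.eq_of_mem_replicate hl] at hb
    exact List.eq_of_mem_replicate hb

theorem codeStk_eq {n sl : ℕ} {l : List Word} (hl : l.length ≤ n) (h : ∀ s ∈ l, s.length = sl) :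
    codeStk n sl l = ((l.map fun s => true :: s) ++
      List.replicate (n - l.length) (List.replicate (sl + 1) false)).flatten := by
  have h1 : ((l.map fun s => true :: s).flatten).length = l.length * (sl + 1) := by
    rw [length_flatten_of (c := sl + 1), List.length_map]
    intro s hs
    obtain ⟨t, ht, rfl⟩ := List.mem_map.1 hs
    rw [List.length_cons, h t ht]
  rw [List.flatten_append, flatten_replicate_false]
  unfold codeStk
  rw [List.take_append, h1, List.take_of_length_le (by rw [h1]; exact Nat.mul_le_mul_right _ hl),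
    List.take_replicate, Nat.sub_mul]
  congr 2
  exact min_eq_left (Nat.sub_le _ _)

theorem rawStk_codeStk {n sl : ℕ} {l : List Word} (hl : l.length ≤ n) (h : ∀ s ∈ l, s.length = sl)
    (r : Word) : rawStk n sl (codeStk n sl l ++ r) = l := by
  have hL : ((l.map fun s => true :: s) ++
      List.replicate (n - l.length) (List.replicate (sl + 1) false)).length = n := by
    rw [List.length_append, List.length_map, List.length_replicate]
    omega
  have hc := chunks_flatten (c := sl + 1) ((l.map fun s => true :: s) ++
      List.replicate (n - l.length) (List.replicate (sl + 1) false)) r (by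
    intro s hs
    rcases List.mem_append.1 hs with hs | hs
    · obtain ⟨t, ht, rfl⟩ := List.mem_map.1 hs
      rw [List.length_cons, h t ht]
    · rw [List.eq_of_mem_replicate hs, List.length_replicate])
  rw [hL, ← codeStk_eq hl h] at hc
  unfold rawStk
  rw [hc, List.filter_append, List.map_append]
  have h1 : (List.replicate (n - l.length) (List.replicate (sl + 1) false)).filter
      (fun c => c.headD false) = [] := by
    rw [List.filter_eq_nil_iff]
    intro s hs
    rw [List.eq_of_mem_replicate hs, List.replicate_succ]
    simp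
  have h2 : (l.map fun s => true :: s).filter (fun c => c.headD false) =
      l.map fun s => true :: s := by
    rw [List.filter_eq_self]
    intro s hs
    obtain ⟨t, _, rfl⟩ := List.mem_map.1 hs
    rfl
  rw [h1, h2, List.map_map, List.map_nil, List.append_nil]
  conv_rhs => rw [← List.map_id l]
  rfl

/-! ### Blocks -/

/-- Blocks as lists: the bit `rel` and the stacks. -/
abbrev LB (T : Type*) : Type _ := Bool × List T × List T

/-- The stack of a side. -/
def LB.st {T : Type*} (b : LB T) (σ : Bool) : List T := bif σ then b.2.2 else b.2.1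

/-- The length of the words. -/
def blen (n sl : ℕ) : ℕ := 2 + 2 * (n * (sl + 1))

/-- The word of a block. -/
def codeLB (n sl : ℕ) (b : LB Word) : Word :=
  true :: b.1 :: (codeStk n sl b.2.1 ++ codeStk n sl b.2.2)

/-- The candidate for the block of a word. -/
def rawLB (n sl : ℕ) (w : Word) : LB Word :=
  (w.getD 1 false, rawStk n sl (w.drop 2), rawStk n sl (w.drop (2 + n * (sl + 1))))

theorem length_codeLB (n sl : ℕ) (b : LB Word) : (codeLB n sl b).length = blen n sl := by
  unfold codeLB blen
  rw [List.length_cons, List.length_cons, List.length_append, length_codeStk, length_codeStk]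
  ring

theorem rawLB_codeLB {n sl : ℕ} {b : LB Word} (h1 : b.2.1.length ≤ n) (h2 : b.2.2.length ≤ n)
    (h3 : ∀ s ∈ b.2.1, s.length = sl) (h4 : ∀ s ∈ b.2.2, s.length = sl) :
    rawLB n sl (codeLB n sl b) = b := by
  unfold rawLB codeLB
  refine Prod.ext rfl (Prod.ext ?_ ?_)
  · show rawStk n sl (codeStk n sl b.2.1 ++ codeStk n sl b.2.2) = b.2.1
    exact rawStk_codeStk h1 h3 _
  · show rawStk n sl (List.drop (2 + n * (sl + 1))
      (true :: b.1 :: (codeStk n sl b.2.1 ++ codeStk n sl b.2.2))) = b.2.2
    have : List.drop (2 + n * (sl + 1))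
        (true :: b.1 :: (codeStk n sl b.2.1 ++ codeStk n sl b.2.2)) = codeStk n sl b.2.2 := by
      rw [← List.drop_drop]
      show List.drop (n * (sl + 1)) (codeStk n sl b.2.1 ++ codeStk n sl b.2.2) = _
      rw [List.drop_left' (length_codeStk _ _ _)]
    rw [this, ← List.append_nil (codeStk n sl b.2.2)]
    exact rawStk_codeStk h2 h4 _

/-- A code of the symbols by words of length `sl`. -/
structure SCode (S : Type) (sl : ℕ) where
  enc : S → Word
  dec : Word → Option S
  len : ∀ s, (enc s).length = sl
  dec_enc : ∀ s, dec (enc s) = some s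
  enc_dec : ∀ w s, dec w = some s → enc s = w

variable {S : Type} {sl : ℕ}

/-- The block as lists of words. -/
def SCode.lb (c : SCode S sl) (b : Blk S) : LB Word :=
  (b.rel, (b.st false).map c.enc, (b.st true).map c.enc)

/-- The decoder of blocks. -/
def SCode.dcB (c : SCode S sl) (n : ℕ) (w : Word) : Option (Blk S) :=
  open Classical in
  if codeLB n sl (rawLB n sl w) = w ∧ (∀ s ∈ (rawLB n sl w).2.1, (c.dec s).isSome) ∧
      (∀ s ∈ (rawLB n sl w).2.2, (c.dec s).isSome) then
    some ⟨(rawLB n sl w).1, fun σ => ((rawLB n sl w).st σ).filterMap c.dec⟩ else none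

theorem SCode.map_enc_filterMap (c : SCode S sl) : ∀ l : List Word,
    (∀ s ∈ l, (c.dec s).isSome) → (l.filterMap c.dec).map c.enc = l
  | [], _ => rfl
  | w :: l, h => by
    obtain ⟨s, hs⟩ := Option.isSome_iff_exists.1 (h w List.mem_cons_self)
    rw [List.filterMap_cons_some hs, List.map_cons, c.enc_dec w s hs,
      c.map_enc_filterMap l fun t ht => h t (List.mem_cons_of_mem _ ht)]

theorem SCode.filterMap_map_enc (c : SCode S sl) : ∀ l : List S,
    (l.map c.enc).filterMap c.dec = l
  | [] => rfl
  | s :: l => by
    rw [List.map_cons, List.filterMap_cons_some (c.dec_enc s), c.filterMap_map_enc l]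

theorem SCode.dcB_code (c : SCode S sl) {n : ℕ} {b : Blk S} (h : ∀ σ, (b.st σ).length ≤ n) :
    c.dcB n (codeLB n sl (c.lb b)) = some b := by
  have h1 : rawLB n sl (codeLB n sl (c.lb b)) = c.lb b :=
    rawLB_codeLB (by simpa [lb] using h false) (by simpa [lb] using h true)
      (by simp [lb, c.len]) (by simp [lb, c.len])
  unfold dcB
  rw [h1, if_pos]
  · congr 1
    refine Blk.ext rfl (funext fun σ => ?_)
    cases σ
    · exact c.filterMap_map_enc _
    · exact c.filterMap_map_enc _
  · refine ⟨rfl, ?_, ?_⟩
    · intro s hs
      obtain ⟨t, _, rfl⟩ := List.mem_map.1 hs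
      rw [c.dec_enc]; rfl
    · intro s hs
      obtain ⟨t, _, rfl⟩ := List.mem_map.1 hs
      rw [c.dec_enc]; rfl

/-- What a decoded block looks like. -/
theorem SCode.dcB_some (c : SCode S sl) {n : ℕ} {w : Word} {b : Blk S} (h : c.dcB n w = some b) :
    codeLB n sl (c.lb b) = w ∧ c.lb b = rawLB n sl w ∧ ∀ σ, (b.st σ).length ≤ n := by
  unfold dcB at h
  split_ifs at h with h1
  obtain ⟨h1, h2, h3⟩ := h1
  have h4 : c.lb b = rawLB n sl w := by
    rw [← Option.some.inj h]
    refine Prod.ext rfl (Prod.ext ?_ ?_)
    · exact c.map_enc_filterMap _ h2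
    · exact c.map_enc_filterMap _ h3
  refine ⟨by rw [h4, h1], h4, fun σ => ?_⟩
  have h5 : (b.st false).length = (rawLB n sl w).2.1.length := by
    rw [← h4]; simp [lb]
  have h6 : (b.st true).length = (rawLB n sl w).2.2.length := by
    rw [← h4]; simp [lb]
  cases σ
  · rw [h5]; exact length_rawStk_le _ _ _
  · rw [h6]; exact length_rawStk_le _ _ _

/-- The code of blocks by words. -/
def SCode.bc (c : SCode S sl) (n : ℕ) : BCode (Blk S) Word where
  code b := codeLB n sl (c.lb b)
  dc := c.dcB n
  d := ⟨false, fun _ => []⟩
  code_dc _ _ h := (c.dcB_some h).1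

/-- The code of blocks by functions `Fin m → Bool`. -/
def SCode.bcF (c : SCode S sl) (n : ℕ) : BCode (Blk S) (Fin (blen n sl) → Bool) where
  code b i := (codeLB n sl (c.lb b))[(i : ℕ)]'(by rw [length_codeLB]; exact i.2)
  dc w := c.dcB n (List.ofFn w)
  d := ⟨false, fun _ => []⟩
  code_dc w b h := by
    have h1 := (c.dcB_some h).1
    funext i
    simp only [h1, List.getElem_ofFn, Fin.eta]

theorem SCode.ofFn_bcF (c : SCode S sl) (n : ℕ) (b : Blk S) :
    List.ofFn ((c.bcF n).code b) = (c.bc n).code b := by
  refine List.ext_getElem (by rw [List.length_ofFn]; exact (length_codeLB _ _ _).symm) ?_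
  intro i h1 h2
  rw [List.getElem_ofFn]
  rfl

theorem SCode.bc_dc_code (c : SCode S sl) {n : ℕ} {b : Blk S} (h : ∀ σ, (b.st σ).length ≤ n) :
    (c.bc n).dc ((c.bc n).code b) = some b := c.dcB_code h

theorem SCode.bcF_dc_code (c : SCode S sl) {n : ℕ} {b : Blk S} (h : ∀ σ, (b.st σ).length ≤ n) :
    (c.bcF n).dc ((c.bcF n).code b) = some b := by
  show c.dcB n (List.ofFn ((c.bcF n).code b)) = _
  rw [c.ofFn_bcF]
  exact c.dcB_code h

/-- The zero word is not the code of a block. -/
theorem SCode.dcB_zero (c : SCode S sl) {n : ℕ} {w : Word} (h : w.headD false = false) :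
    c.dcB n w = none := by
  unfold dcB
  rw [if_neg]
  rintro ⟨h1, -⟩
  rw [← h1] at h
  exact Bool.noConfusion h

theorem Sys_word_length {Om S X : Type} {K : ℕ} (Y : Sys Om S X K) (w : Y.Cf) (h : Om) (σ : Bool) :
    ((Y.bsys.word w h).st σ).length ≤ Y.nb + Y.L := by
  show ((Y.word w.1 h).st σ).length ≤ _
  unfold Sys.word Sys.stk
  simp only [List.length_map, List.length_range]
  exact Nat.add_le_add_left (w.2 σ) _

/-- **The block system on bit strings of fixed length.** -/
theorem bfacts_bits {Om S X : Type} {K : ℕ} [Fintype Om] {Y : Sys Om S X K} {κ : ℝ → ℝ}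
    {θ ρ₁ c₀ : ℝ} (F : BFacts Y.bsys κ θ ρ₁ c₀) (c : SCode S sl) :
    BFacts (trSys Y.bsys (c.bcF (Y.nb + Y.L))) κ θ ρ₁ c₀ :=
  trFacts F fun w h => c.bcF_dc_code (Sys_word_length Y w h)

end Vale.Agent.P330.W.H912
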