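import Vale.Agent.P330.W.H912.SysW

/-!
# From a family of register systems with programs to `SFam`

`SIn`: a family of register systems (with `BFacts` of their block systems), programs in polynomial
time which describe them, numbers of sites and wires, the expander, sizes, the start block and the
reading of the solution from the typed blocks. `SIn.toSFam`: the family of block systems on words.
-/

namespace Vale.Agent.P330.W.H912

open Vale.Agent.Lib.PolyTime Function H797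
open H475 (Wd wd toWd wd0 SFam)
open H838 (QLin QLog len)

theorem qlin_pbd {f : EndOfLine → ℕ} (h : QLin f) : PBd f := by
  obtain ⟨k, hk⟩ := h
  have h1 : PBd (fun I : EndOfLine => k * esize I * (esize I) ^ k) :=
    ((PBd.const k).mul PBd.esize).mul (PBd.esize.pow k)
  refine h1.mono fun I => (hk I).trans ?_
  exact Nat.mul_le_mul_left _ (Nat.pow_le_pow_left (H838.lg_le_len I) k)

/-- The input of the construction. -/
structure SIn (α T : Type) [Enc α] [Enc T] [EncI T] [DecidableEq T] where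
  /-- number of wires -/
  K : ℕ
  /-- the wire that is the identity -/
  own : Fin K
  /-- the constants of `BFacts` -/
  κ : ℝ → ℝ
  κ_pos : ∀ ρ, 0 < ρ → 0 < κ ρ
  θ : ℝ
  θ_pos : 0 < θ
  ρ₁ : ℝ
  ρ₁_pos : 0 < ρ₁
  c₀ : ℝ
  c₀_nonneg : 0 ≤ c₀
  c₀_lt : c₀ < 1
  /-- number of letters of the expander on the sites -/
  nO : ℕ
  nO_pos : 0 < nO
  /-- gap of the expander -/
  g : ℝ
  g_nonneg : 0 ≤ g
  g_lt : g < 1
  N₀ : ℕ
  /-- number of sites -/
  n : EndOfLine → ℕ
  n_pos : ∀ I, 0 < n I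
  /-- the sites -/
  Om : EndOfLine → Type
  fOm : ∀ I, Fintype (Om I)
  /-- numbers of the sites -/
  num : ∀ I, Om I ≃ Fin (n I)
  /-- length of the blocks -/
  m : EndOfLine → ℕ
  m_ge : ∀ I, 3 ≤ m I
  /-- symbols and contents -/
  S : EndOfLine → Type
  X : EndOfLine → Type
  /-- the register systems -/
  Y : ∀ I, Sys (Om I) (S I) (X I) K
  own_eq : ∀ I, (Y I).own = own
  facts : ∀ I, N₀ ≤ len I → BFacts (Y I).bsys κ θ ρ₁ c₀
  /-- the expander -/
  sO : ∀ I, Fin nO → Om I ≃ Om I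
  gap : ∀ I, N₀ ≤ len I → H855.Gap (sO I) g
  n_qlin : QLin n
  m_qlog : QLog m
  n_pt : PT ∅ n
  m_pt : PT ∅ m
  wrN : Fin K → EndOfLine × ℕ → ℕ
  wrN_pt : ∀ i, PT ∅ (wrN i)
  wrN_eq : ∀ i I h, wrN i (I, (num I h : ℕ)) = num I ((Y I).wr i h)
  sON : Fin nO → EndOfLine × ℕ → ℕ
  sON_pt : ∀ j, PT ∅ (sON j)
  sON_eq : ∀ j I h, sON j (I, (num I h : ℕ)) = num I (sO I j h)
  /-- the programs -/
  P : Prg α T
  hP : P.PTs ∅
  /-- length of the symbols -/
  sl : EndOfLine → ℕ
  c : ∀ I, SCode (S I) (sl I)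
  rp : ∀ I, S I → T
  /-- the public data of a site -/
  pubA : ∀ I, Om I → α
  rep : ∀ I, N₀ ≤ len I → Rep P (Y I) (c I) (pubA I) (rp I)
  pubT : EndOfLine × ℕ → α
  pubT_pt : PT ∅ pubT
  pubT_eq : ∀ I h, pubT (I, (num I h : ℕ)) = pubA I h
  /-- the blocks are long enough -/
  m_blk : ∀ I, N₀ ≤ len I → blen ((Y I).nb + (Y I).L) (sl I) ≤ m I
  m_pub : ∀ I h, 2 * esize (pubA I h) + 1 ≤ m I
  /-- the start blocks -/
  st : EndOfLine × ℕ → LB T
  st_pt : PT ∅ st
  st_eq : ∀ I, N₀ ≤ len I → ∀ h,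
    st (I, (num I h : ℕ)) = toLB (rp I) ((Y I).bsys.word (Y I).bsys.w0 h)
  /-- the solution, from the list of the blocks of all sites -/
  solT : EndOfLine × List (LB T) → Word
  solT_pt : PT ∅ solT
  solT_ok : ∀ I, N₀ ≤ len I → ∀ w : (Y I).Cf, (Y I).bsys.Valid w →
    (¬ (Y I).bsys.Valid ((Y I).bsys.step false w) ∨
      (w ≠ (Y I).bsys.w0 ∧ ¬ (Y I).bsys.Valid ((Y I).bsys.step true w))) →
    I.IsSolution (solT (I, List.ofFn fun j =>
      toLB (rp I) ((Y I).bsys.word w ((num I).symm j))))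

namespace SIn

variable {α T : Type} [Enc α] [Enc T] [EncI T] [DecidableEq T] (D : SIn α T)

attribute [instance] SIn.fOm

/-- the start blocks as words -/
def w0W (x : EndOfLine × ℕ) : Word := padTo (D.m x.1) (D.P.codeT (D.pubT x) (D.st x))

/-- The block system on words. For small instances the words are changed such that the start word
is given by `w0W` for all instances. -/
def sys (I : EndOfLine) : BSys (D.Y I).Cf (D.Om I) (Wd (D.m I)) D.K :=
  { D.P.sysW (D.Y I) (D.c I) (D.pubA I) (D.m I) with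
    word := fun w h => if D.N₀ ≤ len I then
      (D.P.sysW (D.Y I) (D.c I) (D.pubA I) (D.m I)).word w h
      else toWd (D.m I) (D.w0W (I, (D.num I h : ℕ))) }

theorem sys_eq {I : EndOfLine} (hI : D.N₀ ≤ len I) :
    D.sys I = D.P.sysW (D.Y I) (D.c I) (D.pubA I) (D.m I) := by
  unfold sys
  simp only [if_pos hI]

theorem sys_facts {I : EndOfLine} (hI : D.N₀ ≤ len I) :
    BFacts (D.sys I) D.κ D.θ D.ρ₁ D.c₀ := by
  rw [D.sys_eq hI]
  exact bfacts_sysW (D.rep I hI) (D.m_blk I hI) (D.facts I hI)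

/-- the public word of a site -/
def pubWd (I : EndOfLine) (h : D.Om I) : Wd (D.m I) := toWd (D.m I) (pubW (D.m I) (D.pubA I h))

theorem padTo_of_length {m : ℕ} {w : Word} (h : w.length = m) : padTo m w = w := by
  rw [padTo_eq h.le, h, Nat.sub_self]
  simp

theorem wd_pubWd (I : EndOfLine) (h : D.Om I) :
    wd (D.pubWd I h) = pubW (D.m I) (D.pubA I h) := by
  unfold pubWd
  rw [wd_toWd, padTo_of_length (length_pubW (D.m_pub I h))]

theorem m_pbd : PBd D.m := qlin_pbd D.m_qlog.qlin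

theorem mT_pt : PT ∅ (fun x : EndOfLine × ℕ => D.m x.1) := D.m_pt.comp PT.fst'

theorem mT_pbd : PBd (fun x : EndOfLine × ℕ => D.m x.1) := D.m_pbd.comp (PT.fst' (A := ∅))

theorem _root_.Vale.Agent.P330.W.H912.PT.pubW {A : Set Word} {α β : Type} [Enc α] [Enc β]
    {m : β → ℕ} {a : β → α} (hm : PT A m) (hmb : PBd m) (ha : PT A a) :
    PT A (fun x => pubW (m x) (a x)) := by
  have h1 : PT A (fun x => List.replicate (m x - (2 * esize (a x) + 1)) false) :=
    PT.replicate (PT.sub hm (PT.add (PT.mul (PT.const 2) (PT.size ha)) (PT.const 1)))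
      (hmb.mono fun x => Nat.sub_le _ _) (PT.const false)
  have h2 : PT A (fun x => Raw.mk (enc (a x))) := PT.encRaw ha
  have h3 : PT A (fun x => Raw.mk (enc ((Raw.mk (enc (a x))),
      (Raw.mk (List.replicate (m x - (2 * esize (a x) + 1)) false))))) :=
    PT.encRaw (h2.pair (PT.rawOfList h1))
  exact PT.listOfRaw h3

/-- the public words on numbers -/
def pubN (x : EndOfLine × ℕ) : Word := pubW (D.m x.1) (D.pubT x)

theorem pubN_pt : PT ∅ D.pubN := PT.pubW D.mT_pt D.mT_pbd D.pubT_pt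

theorem pubN_eq (I : EndOfLine) (h : D.Om I) :
    D.pubN (I, (D.num I h : ℕ)) = wd (D.pubWd I h) := by
  rw [wd_pubWd, ← D.pubT_eq]
  rfl

theorem w0W_pt : PT ∅ D.w0W := PT.padTo D.mT_pt D.mT_pbd (D.hP.codeT D.pubT_pt D.st_pt)

theorem w0W_eq (I : EndOfLine) (h : D.Om I) :
    D.w0W (I, (D.num I h : ℕ)) = wd ((D.sys I).word (D.sys I).w0 h) := by
  by_cases hI : D.N₀ ≤ len I
  · rw [D.sys_eq hI]
    have h1 : D.w0W (I, (D.num I h : ℕ)) = padTo (D.m I) (D.P.codeT (D.pubA I h)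
        (toLB (D.rp I) ((D.Y I).bsys.word (D.Y I).bsys.w0 h))) := by
      unfold w0W
      rw [D.pubT_eq, D.st_eq I hI]
    rw [h1, (D.rep I hI).codeT_toLB, ← wd_toWd]
    rfl
  · show _ = wd (if D.N₀ ≤ len I then _ else toWd (D.m I) (D.w0W (I, (D.num I h : ℕ))))
    rw [if_neg hI, wd_toWd, padTo_of_length]
    exact length_padTo _ _

/-- the typed blocks -/
def dcs (x : EndOfLine × List Word) : List (LB T) :=
  ((List.range x.2.length).zip x.2).map fun p => (D.P.dcP (D.pubT (x.1, p.1)) p.2).getD LB.nil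

theorem dcs_pt : PT ∅ D.dcs := by
  have h1 : PT ∅ (fun x : EndOfLine × List Word => (List.range x.2.length).zip x.2) :=
    PT.zip (PT.range (PT.length PT.snd') (PBd.length (A := ∅) PT.snd')) PT.snd'
  refine PT.map (f := fun (x : EndOfLine × List Word) (p : ℕ × Word) =>
    (D.P.dcP (D.pubT (x.1, p.1)) p.2).getD LB.nil) h1 (PT.optGetD (D.hP.dcP
      (D.pubT_pt.comp (PT.fst'.fst.pair PT.snd'.fst)) PT.snd'.snd) (PT.const _))

theorem dcs_eq {I : EndOfLine} (hI : D.N₀ ≤ len I) (w : (D.Y I).Cf) :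
    D.dcs (I, List.ofFn fun j => wd ((D.sys I).word w ((D.num I).symm j))) =
      List.ofFn fun j => toLB (D.rp I) ((D.Y I).bsys.word w ((D.num I).symm j)) := by
  rw [D.sys_eq hI]
  unfold dcs
  refine List.ext_getElem (by simp) fun i h1 h2 => ?_
  have hi : i < D.n I := by simpa using h2
  rw [List.getElem_map, List.getElem_zip, List.getElem_range, List.getElem_ofFn,
    List.getElem_ofFn]
  have e1 : D.pubT (I, i) = D.pubA I ((D.num I).symm ⟨i, hi⟩) := by
    rw [← D.pubT_eq, Equiv.apply_symm_apply]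
  show (D.P.dcP (D.pubT (I, i)) (wd _)).getD LB.nil = _
  rw [e1, (D.rep I hI).dcP_eq]
  have e2 : ((D.c I).bcP ((D.Y I).nb + (D.Y I).L) (D.m I)).dc
      ((D.P.sysW (D.Y I) (D.c I) (D.pubA I) (D.m I)).word w ((D.num I).symm ⟨i, hi⟩)) =
      some ((D.Y I).bsys.word w ((D.num I).symm ⟨i, hi⟩)) :=
    (D.c I).bcP_dc_code (D.m_blk I hI) (Sys_word_length (D.Y I) w _)
  rw [e2]
  rfl

/-- the site functions of the lists of words -/
theorem exists_fs : ∃ (fchi feta : List Word → Word) (fphi : Bool → List Word → Word),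
    PT ∅ fchi ∧ PT ∅ feta ∧ (∀ z, PT ∅ (fphi z)) ∧
    (∀ M a v, fchi (pubW M a :: v) = [D.P.chiP a v]) ∧
    (∀ M a v, feta (pubW M a :: v) = D.P.etaP a v) ∧
    ∀ z M a v, fphi z (pubW M a :: v) = D.P.phiP a z v := D.hP.exists_site

/-- **The family of block systems on words.** -/
noncomputable def toSFam : SFam where
  K := D.K
  own := D.own
  κ := D.κ
  κ_pos := D.κ_pos
  θ := D.θ
  θ_pos := D.θ_pos
  ρ₁ := D.ρ₁
  ρ₁_pos := D.ρ₁_pos
  c₀ := D.c₀
  c₀_nonneg := D.c₀_nonneg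
  c₀_lt := D.c₀_lt
  nO := D.nO
  nO_pos := D.nO_pos
  g := D.g
  g_nonneg := D.g_nonneg
  g_lt := D.g_lt
  N₀ := D.N₀
  n := D.n
  n_pos := D.n_pos
  Om := D.Om
  fOm := D.fOm
  num := D.num
  m := D.m
  m_ge := D.m_ge
  Cf I := (D.Y I).Cf
  sys := D.sys
  own_eq := D.own_eq
  facts _ hI := D.sys_facts hI
  sO := D.sO
  gap := D.gap
  n_qlin := D.n_qlin
  m_qlog := D.m_qlog
  n_pt := D.n_pt
  m_pt := D.m_pt
  wrN := D.wrN
  wrN_pt := D.wrN_pt
  wrN_eq := D.wrN_eq
  sON := D.sON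
  sON_pt := D.sON_pt
  sON_eq := D.sON_eq
  pub := D.pubWd
  pubN := D.pubN
  pubN_pt := D.pubN_pt
  pubN_eq := D.pubN_eq
  w0N := D.w0W
  w0N_pt := D.w0W_pt
  w0N_eq := D.w0W_eq
  fchi := D.exists_fs.choose
  fchi_pt := D.exists_fs.choose_spec.choose_spec.choose_spec.1
  chi_eq I h v := by
    rw [D.wd_pubWd, D.exists_fs.choose_spec.choose_spec.choose_spec.2.2.2.1]
    rfl
  feta := D.exists_fs.choose_spec.choose
  feta_pt := D.exists_fs.choose_spec.choose_spec.choose_spec.2.1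
  eta_eq I h v := by
    rw [D.wd_pubWd, D.exists_fs.choose_spec.choose_spec.choose_spec.2.2.2.2.1]
    rfl
  fphi := D.exists_fs.choose_spec.choose_spec.choose
  fphi_pt := D.exists_fs.choose_spec.choose_spec.choose_spec.2.2.1
  phi_eq z I h v := by
    rw [D.wd_pubWd, D.exists_fs.choose_spec.choose_spec.choose_spec.2.2.2.2.2]
    rfl
  sol x := D.solT (x.1, D.dcs x)
  sol_pt := D.solT_pt.comp (PT.fst'.pair D.dcs_pt)
  sol_ok I hI w hw hw' := by
    show I.IsSolution (D.solT (I, D.dcs (I, _)))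
    rw [D.dcs_eq hI w]
    exact D.solT_ok I hI w hw hw'

end SIn

end Vale.Agent.P330.W.H912
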