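import Vale.Agent.P330.W.H912.SysW
import Vale.Agent.P330.H985.Sym

/-!
# Programs on words; symbols `Fin D → Fl l`

* `symCode D l`: the code of the symbols `Fin D → Fl l` by words (`cS`, `vS` of `H985/Sym`).
* `WPrg`: programs whose symbols are words (all words of length `sl` are symbols); `WPrg.prg`,
  `WPrg.PTs`, `WPrg.Rep`: the corresponding `Prg`, `Prg.PTs`, `Rep` with the trivial fields proved.
-/

namespace Vale.Agent.P330.W.H912

open Vale.Agent.Lib.PolyTime Function H797 H985 H933

/-- The code of the symbols `Fin D → Fl l`. -/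
noncomputable def symCode (D l : ℕ) : SCode (Fin D → Fl l) (D * eF l) where
  enc := cS l
  dec w := if w.length = D * eF l then some (vS l w) else none
  len := length_cS l
  dec_enc s := by rw [if_pos (length_cS l s), vS_cS]
  enc_dec w s h := by
    split_ifs at h with h1
    rw [← Option.some.inj h, cS_vS h1]

/-- Programs whose symbols are words. -/
structure WPrg (α : Type) where
  own : ℕ
  nb : α → ℕ
  L : α → ℕ
  sl : α → ℕ
  s0 : α → Word
  link : α → ℕ → List (List Word) → Word
  chk : α → ℕ → List Word → Bool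
  bchk : α → List (List Word) → Bool
  vchk : α → List (List Word) → Bool
  dec : α → ℕ → List (Option Word) → Word
  nxt : α → Bool → List (List Word) → List Word

namespace WPrg

variable {α : Type} (P : WPrg α)

/-- The programs. -/
def prg : Prg α Word where
  own := P.own
  nb := P.nb
  L := P.L
  sl := P.sl
  s0 := P.s0
  toB _ t := t
  ofB _ w := w
  ok a w := decide (w.length = P.sl a)
  link := P.link
  chk := P.chk
  bchk := P.bchk
  vchk := P.vchk
  dec := P.dec
  nxt := P.nxt

/-- The programs are computable in polynomial time. -/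
structure PTs [Enc α] (A : Set Word) (P : WPrg α) : Prop where
  nb : PT A P.nb
  nb_bd : PBd P.nb
  L : PT A P.L
  L_bd : PBd P.L
  sl : PT A P.sl
  sl_bd : PBd P.sl
  s0 : PT A P.s0
  link : PT A (fun p : α × ℕ × List (List Word) => P.link p.1 p.2.1 p.2.2)
  chk : PT A (fun p : α × ℕ × List Word => P.chk p.1 p.2.1 p.2.2)
  bchk : PT A (fun p : α × List (List Word) => P.bchk p.1 p.2)
  vchk : PT A (fun p : α × List (List Word) => P.vchk p.1 p.2)
  dec : PT A (fun p : α × ℕ × List (Option Word) => P.dec p.1 p.2.1 p.2.2)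
  nxt : PT A (fun p : α × Bool × List (List Word) => P.nxt p.1 p.2.1 p.2.2)

variable {P}

theorem PTs.prg [Enc α] {A : Set Word} (hP : P.PTs A) : P.prg.PTs A where
  nb := hP.nb
  nb_bd := hP.nb_bd
  L := hP.L
  L_bd := hP.L_bd
  sl := hP.sl
  sl_bd := hP.sl_bd
  s0 := hP.s0
  toB := PT.snd'
  ofB := PT.snd'
  ok := PT.eqNat (PT.length PT.snd') (hP.sl.comp PT.fst')
  link := hP.link
  chk := hP.chk
  bchk := hP.bchk
  vchk := hP.vchk
  dec := hP.dec
  nxt := hP.nxt

/-- The programs describe the register system `Y` with symbols `Fin D → Fl l` at the sites with the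
public data `pub`. -/
structure Rep {Om X : Type} {K D l : ℕ} (P : WPrg α) (Y : Sys Om (Fin D → Fl l) X K)
    (pub : Om → α) : Prop where
  own : (Y.own : ℕ) = P.own
  nb : ∀ h, P.nb (pub h) = Y.nb
  L : ∀ h, P.L (pub h) = Y.L
  sl : ∀ h, P.sl (pub h) = D * eF l
  s0 : ∀ h, P.s0 (pub h) = cS l Y.s0
  link : ∀ h, ∀ j < Y.L, ∀ v : Fin K → List (Fin D → Fl l), (∀ i, (v i).length = Y.nb + j) →
    P.link (pub h) j (List.ofFn fun i => (v i).map (cS l)) = cS l (Y.link j h v)
  chk : ∀ h, ∀ j < Y.nb + Y.L, ∀ v : Fin K → Fin D → Fl l,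
    P.chk (pub h) j (List.ofFn fun i => cS l (v i)) = true ↔ Y.chk j h v
  bchk : ∀ h, ∀ v : Fin K → List (Fin D → Fl l), (∀ i, (v i).length = Y.nb) →
    (P.bchk (pub h) (List.ofFn fun i => (v i).map (cS l)) = true ↔ Y.bchk h v)
  vchk : ∀ h, ∀ v : Fin K → List (Fin D → Fl l), (∀ i, (v i).length = Y.nb + Y.L) →
    (P.vchk (pub h) (List.ofFn fun i => (v i).map (cS l)) = true ↔ Y.vchk h v)
  dec : ∀ h, ∀ j < Y.nb + Y.L, ∀ v : Fin K → Option (Fin D → Fl l),
    P.dec (pub h) j (List.ofFn fun i => (v i).map (cS l)) = cS l (Y.dec j h v)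
  nxt : ∀ h z, ∀ v : Fin K → List (Fin D → Fl l), (∀ i, (v i).length = Y.nb + Y.L) →
    P.nxt (pub h) z (List.ofFn fun i => (v i).map (cS l)) = (Y.nxt z h v).map (cS l)

theorem Rep.rep {Om X : Type} {K D l : ℕ} {Y : Sys Om (Fin D → Fl l) X K} {pub : Om → α}
    (R : P.Rep Y pub) : H912.Rep P.prg Y (symCode D l) pub (cS l) where
  own := R.own
  nb := R.nb
  L := R.L
  sl := R.sl
  s0 := R.s0
  toB _ _ := rfl
  ofB _ w s h := ((symCode D l).enc_dec w s h).symm
  ok h w := by
    show decide (w.length = P.sl (pub h)) =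
      (if w.length = D * eF l then some (vS l w) else none : Option (Fin D → Fl l)).isSome
    rw [R.sl]
    split_ifs with h1 <;> simp [h1]
  link := R.link
  chk := R.chk
  bchk := R.bchk
  vchk := R.vchk
  dec := R.dec
  nxt := R.nxt

end WPrg

end Vale.Agent.P330.W.H912
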