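import Vale.Agent.P330.W.H912.Site

/-!
# The block system on bit strings with site functions in polynomial time

`Rep P Y c pub rp`: the programs `P` describe the register system `Y`. `Prg.bits`: the block system
on bit strings whose site functions are `chiW`, `etaW`, `phiW`. `bfacts_main`: it has the facts
`BFacts` if `Y.bsys` has them.
-/

namespace Vale.Agent.P330.W.H912

open Vale.Agent.Lib.PolyTime Function H797

variable {Om S X α T : Type} {K sl : ℕ}

/-- The programs `P` describe the register system `Y`; symbols are represented by `rp`. -/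
structure Rep (P : Prg α T) (Y : Sys Om S X K) (c : SCode S sl) (pub : Om → α) (rp : S → T) :
    Prop where
  own : (Y.own : ℕ) = P.own
  nb : ∀ h, P.nb (pub h) = Y.nb
  L : ∀ h, P.L (pub h) = Y.L
  sl : ∀ h, P.sl (pub h) = sl
  s0 : ∀ h, P.s0 (pub h) = rp Y.s0
  toB : ∀ h s, P.toB (pub h) (rp s) = c.enc s
  ofB : ∀ h w s, c.dec w = some s → P.ofB (pub h) w = rp s
  ok : ∀ h w, P.ok (pub h) w = (c.dec w).isSome
  link : ∀ h, ∀ j < Y.L, ∀ v : Fin K → List S, (∀ i, (v i).length = Y.nb + j) →
    P.link (pub h) j (List.ofFn fun i => (v i).map rp) = rp (Y.link j h v)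
  chk : ∀ h, ∀ j < Y.nb + Y.L, ∀ v : Fin K → S,
    P.chk (pub h) j (List.ofFn fun i => rp (v i)) = true ↔ Y.chk j h v
  bchk : ∀ h, ∀ v : Fin K → List S, (∀ i, (v i).length = Y.nb) →
    (P.bchk (pub h) (List.ofFn fun i => (v i).map rp) = true ↔ Y.bchk h v)
  vchk : ∀ h, ∀ v : Fin K → List S, (∀ i, (v i).length = Y.nb + Y.L) →
    (P.vchk (pub h) (List.ofFn fun i => (v i).map rp) = true ↔ Y.vchk h v)
  dec : ∀ h, ∀ j < Y.nb + Y.L, ∀ v : Fin K → Option S,
    P.dec (pub h) j (List.ofFn fun i => (v i).map rp) = rp (Y.dec j h v)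
  nxt : ∀ h z, ∀ v : Fin K → List S, (∀ i, (v i).length = Y.nb + Y.L) →
    P.nxt (pub h) z (List.ofFn fun i => (v i).map rp) = (Y.nxt z h v).map rp

/-- A block as lists of represented symbols. -/
def toLB (rp : S → T) (b : Blk S) : LB T := (b.rel, (b.st false).map rp, (b.st true).map rp)

theorem toLB_st (rp : S → T) (b : Blk S) (σ : Bool) : (toLB rp b).st σ = (b.st σ).map rp := by
  cases σ <;> rfl

theorem toLB_shape (rp : S → T) (b : Blk S) : (toLB rp b).shape = b.shape := by
  simp [toLB, LB.shape, Blk.shape]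

theorem toLB_set (rp : S → T) (b : Blk S) (r σ : Bool) (l : List S) :
    (toLB rp b).set r σ (l.map rp) = toLB rp ⟨r, update b.st σ l⟩ := by
  cases σ <;> simp [toLB, LB.set]

namespace Rep

variable {P : Prg α T} {Y : Sys Om S X K} {c : SCode S sl} {pub : Om → α} {rp : S → T}
  (R : Rep P Y c pub rp)

include R

theorem rp_inj (h : Om) : Injective rp := by
  intro s t hst
  have h1 := R.toB h s
  rw [hst, R.toB h t] at h1
  have h2 := c.dec_enc s
  rw [← h1, c.dec_enc t] at h2
  exact (Option.some.inj h2).symm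

theorem n_eq (h : Om) : P.n (pub h) = Y.nb + Y.L := by
  rw [Prg.n, R.nb, R.L]

theorem m_eq (h : Om) : P.m (pub h) = blen (Y.nb + Y.L) sl := by
  rw [Prg.m, R.n_eq, R.sl]

theorem codeT_toLB (h : Om) (b : Blk S) :
    P.codeT (pub h) (toLB rp b) = codeLB (Y.nb + Y.L) sl (c.lb b) := by
  unfold Prg.codeT toLB SCode.lb
  rw [R.n_eq, R.sl]
  congr 1
  refine Prod.ext rfl (Prod.ext ?_ ?_)
  · show ((b.st false).map rp).map (P.toB (pub h)) = _
    rw [List.map_map]
    exact List.map_congr_left fun s _ => R.toB h s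
  · show ((b.st true).map rp).map (P.toB (pub h)) = _
    rw [List.map_map]
    exact List.map_congr_left fun s _ => R.toB h s

theorem map_ofB (h : Om) : ∀ l : List Word, (∀ s ∈ l, (c.dec s).isSome) →
    l.map (P.ofB (pub h)) = (l.filterMap c.dec).map rp
  | [], _ => rfl
  | w :: l, hl => by
    obtain ⟨s, hs⟩ := Option.isSome_iff_exists.1 (hl w List.mem_cons_self)
    rw [List.filterMap_cons_some hs, List.map_cons, List.map_cons, R.ofB h w s hs,
      map_ofB h l fun t ht => hl t (List.mem_cons_of_mem _ ht)]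

theorem dcT_eq (h : Om) (w : Word) :
    P.dcT (pub h) w = (c.dcB (Y.nb + Y.L) w).map (toLB rp) := by
  have hall : ∀ l : List Word, (l.all (P.ok (pub h)) = true) ↔ ∀ s ∈ l, (c.dec s).isSome := by
    intro l
    rw [List.all_eq_true]
    exact forall₂_congr fun s _ => by rw [R.ok]
  unfold Prg.dcT SCode.dcB
  simp only [R.n_eq, R.sl, hall]
  by_cases h1 : codeLB (Y.nb + Y.L) sl (rawLB (Y.nb + Y.L) sl w) = w ∧
      (∀ s ∈ (rawLB (Y.nb + Y.L) sl w).2.1, (c.dec s).isSome) ∧
      (∀ s ∈ (rawLB (Y.nb + Y.L) sl w).2.2, (c.dec s).isSome)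
  · rw [if_pos h1, if_pos h1, Option.map_some]
    congr 1
    refine Prod.ext rfl (Prod.ext ?_ ?_)
    · exact R.map_ofB h _ h1.2.1
    · exact R.map_ofB h _ h1.2.2
  · rw [if_neg h1, if_neg h1]
    rfl

theorem me_eq (u : Fin K → Blk S) :
    P.me (List.ofFn fun i => toLB rp (u i)) = toLB rp (u Y.own) := by
  unfold Prg.me
  rw [← R.own, List.getD_eq_getElem _ _ (by rw [List.length_ofFn]; exact Y.own.2),
    List.getElem_ofFn]

theorem rd_eq (h : Om) (l : List S) (j : ℕ) : P.rd (pub h) (l.map rp) j = rp (l.getD j Y.s0) := by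
  unfold Prg.rd
  rw [R.s0, List.getD_eq_getElem?_getD, List.getD_eq_getElem?_getD, List.getElem?_map]
  rcases l[j]? with _ | x <;> rfl

theorem chkσ_iff (h : Om) (u : Fin K → Blk S) (σ : Bool)
    (hn : ((u Y.own).st σ).length ≤ Y.nb + Y.L) :
    P.chkσ (pub h) (List.ofFn fun i => toLB rp (u i)) σ = true ↔
      ∀ j < ((u Y.own).st σ).length, Y.chk j h (fun i => ((u i).st σ).getD j Y.s0) := by
  unfold Prg.chkσ
  rw [R.me_eq, toLB_st, List.length_map, List.all_eq_true]
  simp only [List.mem_range]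
  refine forall₂_congr fun j hj => ?_
  rw [← R.chk h j (hj.trans_le hn), List.map_ofFn]
  have : ((fun b => P.rd (pub h) (LB.st b σ) j) ∘ fun i => toLB rp (u i)) =
      fun i => rp (((u i).st σ).getD j Y.s0) := by
    funext i
    simp only [comp_apply]
    rw [toLB_st, R.rd_eq]
  rw [this]

variable [DecidableEq T]

theorem linkσ_iff (h : Om) (u : Fin K → Blk S) (σ : Bool)
    (hn : ((u Y.own).st σ).length ≤ Y.nb + Y.L)
    (hu : ∀ i, ((u i).st σ).length = ((u Y.own).st σ).length) :
    P.linkσ (pub h) (List.ofFn fun i => toLB rp (u i)) σ = true ↔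
      ∀ j, Y.nb + j < ((u Y.own).st σ).length →
        ((u Y.own).st σ).getD (Y.nb + j) Y.s0 =
          Y.link j h (fun i => ((u i).st σ).take (Y.nb + j)) := by
  unfold Prg.linkσ
  rw [R.me_eq, toLB_st, List.length_map, List.all_eq_true]
  simp only [List.mem_range, Bool.or_eq_true, decide_eq_true_eq]
  have key : ∀ j, Y.nb + j < ((u Y.own).st σ).length →
      (P.rd (pub h) (((u Y.own).st σ).map rp) (Y.nb + j) =
        P.link (pub h) (Y.nb + j - P.nb (pub h)) ((List.ofFn fun i => toLB rp (u i)).map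
          fun b => (b.st σ).take (Y.nb + j)) ↔
      ((u Y.own).st σ).getD (Y.nb + j) Y.s0 =
          Y.link j h (fun i => ((u i).st σ).take (Y.nb + j))) := by
    intro j hj
    rw [R.nb, Nat.add_sub_cancel_left, R.rd_eq, List.map_ofFn]
    have : ((fun b => (LB.st b σ).take (Y.nb + j)) ∘ fun i => toLB rp (u i)) =
        fun i => (((u i).st σ).take (Y.nb + j)).map rp := by
      funext i
      simp only [comp_apply]
      rw [toLB_st, List.map_take]
    rw [this, R.link h j (by omega) _ fun i => by rw [List.length_take, hu]; omega]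
    exact (R.rp_inj h).eq_iff
  constructor
  · intro h1 j hj
    rcases h1 (Y.nb + j) hj with h2 | h2
    · rw [R.nb] at h2; omega
    · exact (key j hj).1 h2
  · intro h1 j hj
    rw [R.nb]
    rcases lt_or_ge j Y.nb with h2 | h2
    · exact Or.inl h2
    · right
      obtain ⟨k, rfl⟩ := Nat.exists_eq_add_of_le h2
      have := (key k hj).2 (h1 k hj)
      rwa [R.nb] at this

theorem fullσ_iff (h : Om) (u : Fin K → Blk S) (σ : Bool)
    (hu : ∀ i, ((u i).st σ).length = ((u Y.own).st σ).length) :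
    P.fullσ (pub h) (List.ofFn fun i => toLB rp (u i)) σ = true ↔
      (((u Y.own).st σ).length = Y.nb + Y.L →
        Y.bchk h (fun i => ((u i).st σ).take Y.nb) ∧ Y.vchk h (fun i => (u i).st σ) ∧
        ((u Y.own).st (!σ)).take Y.nb = if (u Y.own).rel then Y.nxt σ h (fun i => (u i).st σ)
          else ((u Y.own).st σ).take Y.nb) := by
  unfold Prg.fullσ
  rw [R.me_eq, toLB_st, toLB_st, List.length_map, R.n_eq, R.nb]
  simp only [Bool.or_eq_true, Bool.not_eq_true', decide_eq_false_iff_not, Bool.and_eq_true,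
    decide_eq_true_eq]
  have e1 : ((List.ofFn fun i => toLB rp (u i)).map fun b => (LB.st b σ).take Y.nb) =
      List.ofFn fun i => (((u i).st σ).take Y.nb).map rp := by
    rw [List.map_ofFn]
    congr 1
    funext i
    simp only [comp_apply]
    rw [toLB_st, List.map_take]
  have e2 : ((List.ofFn fun i => toLB rp (u i)).map fun b => LB.st b σ) =
      List.ofFn fun i => ((u i).st σ).map rp := by
    rw [List.map_ofFn]
    congr 1
    funext i
    simp only [comp_apply]
    rw [toLB_st]
  rw [e1, e2]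
  by_cases hf : ((u Y.own).st σ).length = Y.nb + Y.L
  · rw [R.bchk h _ fun i => by rw [List.length_take, hu, hf]; omega,
      R.vchk h _ fun i => by rw [hu, hf]]
    simp only [hf, not_true_eq_false, false_or, true_imp_iff]
    refine and_congr_right fun _ => and_congr_right fun _ => ?_
    show _ = (bif (u Y.own).rel then _ else _) ↔ _
    rcases hr : (u Y.own).rel with _ | _
    · simp only [cond_false, Bool.false_eq_true, if_false]
      rw [← List.map_take, ← List.map_take]
      exact (List.map_injective_iff.2 (R.rp_inj h)).eq_iff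
    · simp only [cond_true, if_true]
      rw [← List.map_take, R.nxt h σ _ fun i => by rw [hu, hf]]
      exact (List.map_injective_iff.2 (R.rp_inj h)).eq_iff
  · simp [hf]

theorem chiT_iff (h : Om) (u : Fin K → Blk S) :
    P.chiT (pub h) (List.ofFn fun i => toLB rp (u i)) = true ↔ Y.chi h u := by
  unfold Prg.chiT Prg.sideσ Sys.chi
  rw [R.me_eq]
  simp only [Bool.and_eq_true, Bool.or_eq_true, decide_eq_true_eq, toLB_st, toLB_shape,
    List.length_map, R.n_eq, R.nb, List.all_eq_true]
  have e1 : (∀ x ∈ List.ofFn fun i => toLB rp (u i), x.shape = (u Y.own).shape) ↔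
      ∀ i, (u i).shape = (u Y.own).shape := by
    constructor
    · intro h1 i
      rw [← toLB_shape rp]
      exact h1 _ (by rw [List.mem_ofFn]; exact ⟨i, rfl⟩)
    · intro h1 x hx
      rw [List.mem_ofFn] at hx
      obtain ⟨i, rfl⟩ := hx
      rw [toLB_shape]
      exact h1 i
  rw [e1]
  refine and_congr_right fun hsh => ?_
  have hu : ∀ σ i, ((u i).st σ).length = ((u Y.own).st σ).length := by
    intro σ i
    have := hsh i
    simp only [Blk.shape, Prod.mk.injEq] at this
    cases σ
    · exact this.2.1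
    · exact this.2.2
  constructor
  · rintro ⟨h1, ⟨⟨h2, h2'⟩, h3, h4, h5⟩, ⟨⟨h6, h6'⟩, h7, h8, h9⟩⟩
    rw [R.chkσ_iff h u _ h2'] at h3
    rw [R.chkσ_iff h u _ h6'] at h7
    rw [R.linkσ_iff h u _ h2' (hu _)] at h4
    rw [R.linkσ_iff h u _ h6' (hu _)] at h8
    rw [R.fullσ_iff h u _ (hu _)] at h5 h9
    refine ⟨fun σ => ?_, ?_, fun σ => ?_, fun σ => ?_, fun σ => ?_⟩
    · cases σ
      · exact ⟨h2, h2'⟩
      · exact ⟨h6, h6'⟩
    · rcases h1 with h1 | h1
      · exact ⟨false, h1⟩
      · exact ⟨true, h1⟩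
    · cases σ
      · exact h3
      · exact h7
    · cases σ
      · exact h4
      · exact h8
    · cases σ
      · exact h5
      · exact h9
  · rintro ⟨h1, ⟨σ, h2⟩, h3, h4, h5⟩
    refine ⟨?_, ⟨h1 false, ?_, ?_, ?_⟩, ⟨h1 true, ?_, ?_, ?_⟩⟩
    · cases σ
      · exact Or.inl h2
      · exact Or.inr h2
    · rw [R.chkσ_iff h u _ (h1 false).2]; exact h3 false
    · rw [R.linkσ_iff h u _ (h1 false).2 (hu _)]; exact h4 false
    · rw [R.fullσ_iff h u _ (hu _)]; exact h5 false
    · rw [R.chkσ_iff h u _ (h1 true).2]; exact h3 true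
    · rw [R.linkσ_iff h u _ (h1 true).2 (hu _)]; exact h4 true
    · rw [R.fullσ_iff h u _ (hu _)]; exact h5 true

omit [DecidableEq T] in
theorem etaT_eq (h : Om) (v : Fin K → Option (Blk S))
    (hv : ∀ i b, v i = some b → ∀ σ, (b.st σ).length ≤ Y.nb + Y.L) :
    P.etaT (pub h) (List.ofFn fun i => (v i).map (toLB rp)) = toLB rp (Y.eta h v) := by
  have hs : majL ((List.ofFn fun i => (v i).map (toLB rp)).map (Option.map LB.shape))
      (false, 0, 0) = maj (fun i => (v i).map Blk.shape) (false, 0, 0) := by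
    rw [List.map_ofFn, ← majL_ofFn]
    congr 2
    funext i
    simp only [comp_apply]
    rcases v i with _ | b
    · rfl
    · simp only [Option.map_some]; rw [toLB_shape]
  set s := maj (fun i => (v i).map Blk.shape) (false, 0, 0) with hsd
  have hle : s.2.1 ≤ Y.nb + Y.L ∧ s.2.2 ≤ Y.nb + Y.L := by
    rcases hf : (((List.finRange K).filterMap fun i => (v i).map Blk.shape).find? fun t =>
      decide (K < 2 * ((List.finRange K).countP fun i =>
        decide ((v i).map Blk.shape = some t)))) with _ | t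
    · have : s = (false, 0, 0) := by rw [hsd, maj, hf]; rfl
      rw [this]; simp
    · have hst : s = t := by rw [hsd, maj, hf]; rfl
      have ht := List.mem_of_find?_eq_some hf
      rw [List.mem_filterMap] at ht
      obtain ⟨i, -, hi⟩ := ht
      rcases hvi : v i with _ | b
      · rw [hvi] at hi; simp at hi
      · rw [hvi, Option.map_some] at hi
        rw [hst, ← Option.some.inj hi]
        exact ⟨hv i b hvi false, hv i b hvi true⟩
  have hdec : ∀ (σ : Bool), ∀ j < Y.nb + Y.L,
      P.dec (pub h) j ((List.ofFn fun i => (v i).map (toLB rp)).map fun o =>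
        o.bind fun b => (LB.st b σ)[j]?) =
      rp (Y.dec j h fun i => (v i).bind fun b => (b.st σ)[j]?) := by
    intro σ j hj
    rw [← R.dec h j hj, List.map_ofFn]
    congr 2
    funext i
    simp only [comp_apply]
    rcases v i with _ | b
    · rfl
    · simp only [Option.map_some, Option.bind_some]
      rw [toLB_st, List.getElem?_map]
  unfold Prg.etaT
  rw [hs]
  refine Prod.ext rfl (Prod.ext ?_ ?_)
  · show (List.range (min s.2.1 (P.n (pub h)))).map _ = ((List.range (shLen s false)).map _).map rp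
    rw [R.n_eq, min_eq_left hle.1, List.map_map]
    refine List.map_congr_left fun j hj => ?_
    exact hdec false j ((List.mem_range.1 hj).trans_le hle.1)
  · show (List.range (min s.2.2 (P.n (pub h)))).map _ = ((List.range (shLen s true)).map _).map rp
    rw [R.n_eq, min_eq_left hle.2, List.map_map]
    refine List.map_congr_left fun j hj => ?_
    exact hdec true j ((List.mem_range.1 hj).trans_le hle.2)

omit [DecidableEq T] in
theorem phiT_eq (h : Om) (z : Bool) (u : Fin K → Blk S)
    (hu : ∀ σ i, ((u i).st σ).length = ((u Y.own).st σ).length)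
    (hn : ∀ σ, Y.nb ≤ ((u Y.own).st σ).length ∧ ((u Y.own).st σ).length ≤ Y.nb + Y.L) :
    P.phiT (pub h) z (List.ofFn fun i => toLB rp (u i)) = toLB rp (Y.phi z h u) := by
  unfold Prg.phiT Sys.phi
  simp only [R.me_eq, toLB_st, R.n_eq, R.nb, List.length_map]
  have e : (toLB rp (u Y.own)).1 = (u Y.own).rel := rfl
  simp only [e]
  have e2 : ∀ σ, ((List.ofFn fun i => toLB rp (u i)).map fun b => LB.st b σ) =
      List.ofFn fun i => ((u i).st σ).map rp := by
    intro σ
    rw [List.map_ofFn]
    congr 1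
    funext i
    simp only [comp_apply]
    rw [toLB_st]
  rw [e2]
  set g := Bool.xor z (u Y.own).rel with hg
  by_cases h1 : ((u Y.own).st g).length = Y.nb + Y.L
  · rw [if_pos h1, if_neg (not_not.2 h1)]
    by_cases h2 : ((u Y.own).st (!g)).length = Y.nb
    · rw [if_pos h2, if_neg (not_not.2 h2), ← toLB_set]
      congr 1
      rw [R.nxt h g _ fun i => by rw [hu, h1]]
      cases (u Y.own).rel
      · rfl
      · simp only [Bool.not_true, cond_false, Bool.false_eq_true, if_false]
        rw [List.map_take]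
    · rw [if_neg h2, if_pos h2, ← toLB_set, List.map_dropLast]
  · rw [if_neg h1, if_pos h1, ← toLB_set, List.map_append, List.map_cons, List.map_nil,
      R.link h _ _ _ fun i => ?_]
    · have := hn g
      omega
    · rw [hu]
      have := hn g
      omega

end Rep

/-! ### The block system on bit strings -/

theorem fr_mono [Fintype Om] {p q : Om → Prop} (h : ∀ x, p x → q x) : fr p ≤ fr q := by
  unfold fr
  refine div_le_div_of_nonneg_right ?_ (Nat.cast_nonneg _)
  exact_mod_cast Finset.card_le_card fun x hx => by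
    simp only [Finset.mem_filter, Finset.mem_univ, true_and] at hx ⊢
    exact h x hx

/-- Other functions with the same values where it matters. -/
theorem bfacts_congr {Cf Bl : Type} [Fintype Om] {B : BSys Cf Om Bl K} {κ : ℝ → ℝ}
    {θ ρ₁ c₀ : ℝ} (F : BFacts B κ θ ρ₁ c₀) {chi : Om → (Fin K → Bl) → Prop}
    {eta : Om → (Fin K → Option Bl) → Bl} {phi : Bool → Om → (Fin K → Bl) → Bl}
    (hchi : ∀ h v, B.chi h v ↔ chi h v) (heta : ∀ h v, eta h v = B.eta h v)
    (hphi : ∀ z w, B.Valid w → ∀ h,
      phi z h (fun i => B.word w (B.wr i h)) = B.word (B.step z w) h) :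
    BFacts { B with chi := chi, eta := eta, phi := phi } κ θ ρ₁ c₀ := by
  refine ⟨?_, ?_, ?_, ?_, ?_, ?_, ?_, ?_, ?_⟩
  · exact F.wr_own
  · exact fun w hw h => (hchi h _).1 (F.complete w hw h)
  · intro ρ hρ X hX
    have h3 : ∀ h, (¬ ∃ v : Fin K → Bl, (∀ i, X (B.wr i h) = some (v i)) ∧ B.chi h v) →
        ¬ ∃ v : Fin K → Bl, (∀ i, X (B.wr i h) = some (v i)) ∧ chi h v := by
      rintro h h1 ⟨v, hv, hc⟩
      exact h1 ⟨v, hv, (hchi h v).2 hc⟩
    exact F.sound ρ hρ X ((fr_mono h3).trans hX)
  · exact F.dist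
  · intro A hA
    obtain ⟨A', hA', h1⟩ := F.contract A hA
    refine ⟨A', hA', fun h hh w v hv => ?_⟩
    exact (heta h v).trans (h1 h hh w v hv)
  · exact hphi
  · exact F.valid0
  · exact F.inv
  · exact F.start

/-- The block system on bit strings. -/
def Prg.bits [DecidableEq T] (P : Prg α T) (Y : Sys Om S X K) (c : SCode S sl) (pub : Om → α) :
    BSys Y.Cf Om (Fin (blen (Y.nb + Y.L) sl) → Bool) K :=
  { trSys Y.bsys (c.bcF (Y.nb + Y.L)) with
    chi := fun h v => P.chiW (pub h) (List.ofFn fun i => List.ofFn (v i)) = true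
    eta := fun h v => fun j =>
      (P.etaW (pub h) (List.ofFn fun i => (v i).map List.ofFn)).getD j false
    phi := fun z h v => fun j =>
      (P.phiW (pub h) z (List.ofFn fun i => List.ofFn (v i))).getD j false }

theorem Prg.ofFn_word [DecidableEq T] (P : Prg α T) (Y : Sys Om S X K) (c : SCode S sl)
    (pub : Om → α) (w : Y.Cf) (h : Om) : List.ofFn ((P.bits Y c pub).word w h) =
      codeLB (Y.nb + Y.L) sl (c.lb (Y.bsys.word w h)) := c.ofFn_bcF _ _

theorem getD_of_ofFn_eq {n : ℕ} {w : Fin n → Bool} {l : Word} (h : l = List.ofFn w) :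
    (fun j : Fin n => l.getD j false) = w := by
  subst h
  funext j
  rw [List.getD_eq_getElem _ _ (by rw [List.length_ofFn]; exact j.2), List.getElem_ofFn]

namespace Rep

variable [DecidableEq T] {P : Prg α T} {Y : Sys Om S X K} {c : SCode S sl} {pub : Om → α}
  {rp : S → T} (R : Rep P Y c pub rp)

include R

omit [DecidableEq T] in
theorem map_dcT (h : Om) {v : Fin K → Word} {u : Fin K → Blk S}
    (hu : ∀ i, c.dcB (Y.nb + Y.L) (v i) = some (u i)) :
    ((List.ofFn v).map fun w => (P.dcT (pub h) w).getD LB.nil) =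
      List.ofFn fun i => toLB rp (u i) := by
  rw [List.map_ofFn]
  congr 1
  funext i
  simp only [comp_apply]
  rw [R.dcT_eq, hu i]
  rfl

theorem chi_iff (h : Om) (v : Fin K → Fin (blen (Y.nb + Y.L) sl) → Bool) :
    (trSys Y.bsys (c.bcF (Y.nb + Y.L))).chi h v ↔
      P.chiW (pub h) (List.ofFn fun i => List.ofFn (v i)) = true := by
  show (∃ u : Fin K → Blk S, (∀ i, c.dcB (Y.nb + Y.L) (List.ofFn (v i)) = some (u i)) ∧
    Y.chi h u) ↔ _
  unfold Prg.chiW
  rw [Bool.and_eq_true, List.all_eq_true]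
  have e1 : (∀ w ∈ List.ofFn fun i => List.ofFn (v i), (P.dcT (pub h) w).isSome = true) ↔
      ∀ i, (c.dcB (Y.nb + Y.L) (List.ofFn (v i))).isSome = true := by
    constructor
    · intro h1 i
      have := h1 _ (by rw [List.mem_ofFn]; exact ⟨i, rfl⟩)
      rwa [R.dcT_eq, Option.isSome_map] at this
    · intro h1 w hw
      rw [List.mem_ofFn] at hw
      obtain ⟨i, rfl⟩ := hw
      rw [R.dcT_eq, Option.isSome_map]
      exact h1 i
  rw [e1]
  constructor
  · rintro ⟨u, hu, hc⟩
    refine ⟨fun i => by rw [hu i]; rfl, ?_⟩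
    rw [R.map_dcT h hu, R.chiT_iff]
    exact hc
  · rintro ⟨h1, h2⟩
    choose u hu using fun i => Option.isSome_iff_exists.1 (h1 i)
    rw [R.map_dcT h hu, R.chiT_iff] at h2
    exact ⟨u, hu, h2⟩

omit [DecidableEq T] in
theorem eta_eq (h : Om) (v : Fin K → Option (Fin (blen (Y.nb + Y.L) sl) → Bool)) :
    (fun j : Fin (blen (Y.nb + Y.L) sl) =>
      (P.etaW (pub h) (List.ofFn fun i => (v i).map List.ofFn)).getD j false) =
      (trSys Y.bsys (c.bcF (Y.nb + Y.L))).eta h v := by
  refine getD_of_ofFn_eq ?_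
  show P.etaW (pub h) (List.ofFn fun i => (v i).map List.ofFn) =
    List.ofFn ((c.bcF (Y.nb + Y.L)).code (Y.eta h fun i =>
      (v i).bind fun w => c.dcB (Y.nb + Y.L) (List.ofFn w)))
  rw [c.ofFn_bcF]
  show _ = codeLB (Y.nb + Y.L) sl (c.lb _)
  rw [← R.codeT_toLB h, ← R.etaT_eq h _ ?_]
  · unfold Prg.etaW
    congr 2
    rw [List.map_ofFn]
    congr 1
    funext i
    simp only [comp_apply]
    rcases v i with _ | w
    · rfl
    · simp only [Option.map_some, Option.bind_some]
      exact R.dcT_eq h _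
  · intro i b hb σ
    rcases hvi : v i with _ | w
    · rw [hvi] at hb; simp at hb
    · rw [hvi, Option.bind_some] at hb
      exact (c.dcB_some hb).2.2 σ

omit [DecidableEq T] R in
theorem st_length (w : Y.Cf) (x : Om) (σ : Bool) :
    ((Y.bsys.word w x).st σ).length = Y.nb + w.1.ht σ := by
  show ((Y.word w.1 x).st σ).length = _
  simp [Sys.word, Sys.stk]

omit [DecidableEq T] in
theorem phi_eq (h : Om) (z : Bool) (w : Y.Cf) :
    (fun j : Fin (blen (Y.nb + Y.L) sl) => (P.phiW (pub h) z (List.ofFn fun i =>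
      List.ofFn ((trSys Y.bsys (c.bcF (Y.nb + Y.L))).word w (Y.wr i h)))).getD j false) =
      (c.bcF (Y.nb + Y.L)).code (Y.bsys.phi z h fun i => Y.bsys.word w (Y.wr i h)) := by
  refine getD_of_ofFn_eq ?_
  rw [c.ofFn_bcF]
  show _ = codeLB (Y.nb + Y.L) sl (c.lb (Y.phi z h fun i => Y.bsys.word w (Y.wr i h)))
  rw [← R.codeT_toLB h, ← R.phiT_eq h z _ (fun σ i => by rw [st_length, st_length]) fun σ => by
    rw [st_length]
    have := w.2 σ
    omega]
  unfold Prg.phiW
  rw [R.map_dcT h (u := fun i => Y.bsys.word w (Y.wr i h)) fun i => ?_]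
  show c.dcB _ (List.ofFn ((c.bcF (Y.nb + Y.L)).code _)) = _
  rw [c.ofFn_bcF]
  exact c.dcB_code fun σ => Sys_word_length Y w _ σ

end Rep

/-- **The block system on bit strings, with site functions in polynomial time, has the facts.** -/
theorem bfacts_main [Fintype Om] [DecidableEq T] {P : Prg α T} {Y : Sys Om S X K}
    {c : SCode S sl} {pub : Om → α} {rp : S → T} (R : Rep P Y c pub rp)
    {κ : ℝ → ℝ} {θ ρ₁ c₀ : ℝ} (F : BFacts Y.bsys κ θ ρ₁ c₀) :
    BFacts (P.bits Y c pub) κ θ ρ₁ c₀ :=
  bfacts_congr (bfacts_bits F c) R.chi_iff R.eta_eq fun z w hw h =>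
    (R.phi_eq h z w).trans (congrArg _ (F.phi_word z w hw h))

end Vale.Agent.P330.W.H912
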