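import Vale.Agent.Lib.PolyTime.Bitwise
import Vale.Agent.Lib.PolyTime.Lists2
import Vale.Agent.Lib.PolyTime.Lists3

/-!
# Equality tests and raw words in the calculus

* `EncI`: types with an injective encoding; `PT.decEq`: equality is decided in polynomial time.
* `PT.encRaw`: the code of an object as a raw word.
* `exists_lift`: a site function with typed public data, as a function of a list of bit strings.
-/

namespace Vale.Agent.P330.W.H912

open Vale.Agent.Lib.PolyTime Function

variable {A : Set Word} {α β γ δ : Type*} [Enc α] [Enc β] [Enc γ] [Enc δ]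

/-! ### Injective encodings -/

theorem val_inj_of_length : ∀ {w w' : Word}, w.length = w'.length → val w = val w' → w = w'
  | [], [], _, _ => rfl
  | b :: w, c :: w', h, h' => by
    simp only [List.length_cons, add_left_inj] at h
    simp only [val_cons] at h'
    have hb : b = c ∧ val w = val w' := by
      cases b <;> cases c <;> simp at h' ⊢ <;> omega
    rw [hb.1, val_inj_of_length h hb.2]

/-- Equality of raw words. -/
theorem PT.rawEq {f g : α → Raw} (hf : PT A f) (hg : PT A g) :
    PT A (fun a => decide ((f a).w = (g a).w)) := by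
  refine ((PT.eqNat (PT.rawLength hf) (PT.rawLength hg)).and
    (PT.eqNat (PT.rawVal hf) (PT.rawVal hg))).congr fun a => ?_
  rw [Bool.eq_iff_iff]
  simp only [Bool.and_eq_true, decide_eq_true_eq]
  constructor
  · rintro ⟨h1, h2⟩; exact val_inj_of_length h1 h2
  · intro h; rw [h]; exact ⟨rfl, rfl⟩

/-- The code of an object as a raw word. -/
theorem PT.encRaw {f : α → β} (hf : PT A f) : PT A (fun a => Raw.mk (enc (f a))) := by
  obtain ⟨g, hg, hg'⟩ := hf
  exact ⟨g, hg, hg'⟩

/-- Types with an injective encoding. -/
class EncI (α : Type*) [Enc α] : Prop where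
  inj : Injective (enc : α → Word)

instance : EncI Unit := ⟨fun _ _ _ => rfl⟩

instance : EncI Bool := ⟨fun a b h => by
  rw [enc_bool, enc_bool] at h
  exact List.head_eq_of_cons_eq h⟩

instance : EncI ℕ := ⟨fun a b h => by
  rw [enc_nat, enc_nat] at h
  have : val a.bits = val b.bits := by rw [h]
  rwa [val_bits, val_bits] at this⟩

instance : EncI Raw := ⟨fun a b h => by
  rcases a with ⟨a⟩
  rcases b with ⟨b⟩
  exact congrArg Raw.mk h⟩

instance : EncI Un := ⟨fun a b h => by
  rcases a with ⟨a⟩
  rcases b with ⟨b⟩
  have := congrArg List.length h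
  simp only [enc_un, List.length_replicate] at this
  rw [this]⟩

instance [EncI α] [EncI β] : EncI (α × β) := ⟨fun a b h => by
  rcases a with ⟨a, a'⟩
  rcases b with ⟨b, b'⟩
  rw [enc_pair, enc_pair] at h
  obtain ⟨h1, h2⟩ := pr_inj h
  rw [EncI.inj h1, EncI.inj h2]⟩

instance [EncI α] : EncI (Option α) := ⟨fun a b h => by
  rcases a with _ | a <;> rcases b with _ | b
  · rfl
  · simp [enc_none, enc_some] at h
  · simp [enc_none, enc_some] at h
  · rw [enc_some, enc_some] at h
    rw [EncI.inj (List.tail_eq_of_cons_eq h)]⟩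

instance [EncI α] : EncI (List α) := ⟨fun a => by
  induction a with
  | nil =>
    intro b h
    rcases b with _ | ⟨b, l⟩
    · rfl
    · exfalso
      have := congrArg List.length h
      rw [enc_nil, enc_cons, length_pr] at this
      simp at this
  | cons x a ih =>
    intro b h
    rcases b with _ | ⟨y, l⟩
    · exfalso
      have := congrArg List.length h
      rw [enc_nil, enc_cons, length_pr] at this
      simp at this
    · rw [enc_cons, enc_cons] at h
      obtain ⟨h1, h2⟩ := pr_inj h
      rw [EncI.inj h1, ih h2]⟩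

/-- Equality is decided in polynomial time. -/
theorem PT.decEq [EncI β] [DecidableEq β] {f g : α → β} (hf : PT A f) (hg : PT A g) :
    PT A (fun a => decide (f a = g a)) :=
  (PT.rawEq (PT.encRaw hf) (PT.encRaw hg)).congr fun a => by
    rw [Bool.eq_iff_iff]
    simp only [decide_eq_true_eq]
    exact ⟨fun h => EncI.inj h, fun h => by rw [h]⟩

/-! ### Site functions of typed public data as functions of bit strings -/

/-- The public data as a bit string of length `M` (if `M` is large enough). -/
def pubW (M : ℕ) (a : α) : List Bool :=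
  pr (enc a) (List.replicate (M - (2 * esize a + 1)) false)

theorem length_pubW {M : ℕ} {a : α} (h : 2 * esize a + 1 ≤ M) : (pubW M a).length = M := by
  unfold esize at h
  rw [pubW, length_pr, List.length_replicate]
  unfold esize
  omega

theorem fstW_pubW (M : ℕ) (a : α) : fstW (pubW M a) = enc a := fstW_pr _ _

/-- A PT function of public data and a further argument, as a function of the public string. -/
theorem exists_lift {f : α × β → List Bool} (hf : PT A f) :
    ∃ F : List Bool × β → List Bool, PT A F ∧ ∀ M a b, F (pubW M a, b) = f (a, b) := by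
  obtain ⟨g, hg, hg'⟩ := PT.rawOfList hf
  have h1 : PT A (fun p : List Bool × β => Raw.mk (fstW p.1)) := by
    obtain ⟨G, hG, hG'⟩ := PT.rawOfList (A := A) (PT.fst' (α := List Bool) (β := β))
    exact ⟨_, FP.fst.comp hG, fun a => by rw [hG']; rfl⟩
  have h2 : PT A (fun p : List Bool × β => Raw.mk (g (pr (fstW p.1) (enc p.2)))) := by
    obtain ⟨G, hG, hG'⟩ := h1.pair (PT.snd' (α := List Bool) (β := β))
    exact ⟨_, hg.comp hG, fun a => by rw [hG']; rfl⟩
  refine ⟨fun p => g (pr (fstW p.1) (enc p.2)), PT.listOfRaw h2, fun M a b => ?_⟩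
  show g (pr (fstW (pubW M a)) (enc b)) = f (a, b)
  rw [fstW_pubW, ← enc_pair, hg', enc_raw]

/-- A PT function of public data and a list of blocks, as a function of a list of bit strings, the
first one of which is the public string. -/
theorem exists_lift_list {f : α × List (List Bool) → List Bool} (hf : PT A f) :
    ∃ F : List (List Bool) → List Bool, PT A F ∧ ∀ M a bs, F (pubW M a :: bs) = f (a, bs) := by
  obtain ⟨F, hF, hF'⟩ := exists_lift hf
  refine ⟨fun ws => F (ws.headD [], ws.tail), hF.comp ((PT.headD PT.id (PT.const [])).pair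
    (PT.tail PT.id)), fun M a bs => ?_⟩
  exact hF' M a bs

/-- The same for raw words. -/
theorem exists_lift_raw {f : α × List Raw → Raw} (hf : PT A f) :
    ∃ F : List Raw → Raw, PT A F ∧ ∀ M a bs, F (Raw.mk (pubW M a) :: bs) = f (a, bs) := by
  obtain ⟨g, hg, hg'⟩ := hf
  have h1 : PT A (fun p : List Raw => Raw.mk (fstW (p.headD (Raw.mk [])).w)) := by
    obtain ⟨G, hG, hG'⟩ := PT.headD (A := A) (PT.id (α := List Raw)) (PT.const (Raw.mk []))
    exact ⟨_, FP.fst.comp hG, fun a => by rw [hG']; rfl⟩
  obtain ⟨G, hG, hG'⟩ := h1.pair (PT.tail (PT.id (α := List Raw)))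
  refine ⟨fun ws => Raw.mk (g (pr (fstW (ws.headD (Raw.mk [])).w) (enc ws.tail))),
    ⟨_, hg.comp hG, fun a => by rw [hG']; rfl⟩, fun M a bs => ?_⟩
  show Raw.mk (g (pr (fstW (pubW M a)) (enc bs))) = f (a, bs)
  rw [fstW_pubW, ← enc_pair, hg', enc_raw]

end Vale.Agent.P330.W.H912
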