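import Vale.Agent.P330.W.H912.Fmt

/-!
# Site functions on lists

`Prg`: uniform programs for a family of register systems (public data `α`, symbols `T`); `PTs`: they
are computable in polynomial time. From them: the site functions `chiW`, `etaW`, `phiW` on bit
strings, computable in polynomial time.
-/

namespace Vale.Agent.P330.W.H912

open Vale.Agent.Lib.PolyTime Function H797

/-! ### Additional list operations -/

section Lists

variable {A : Set Word} {α β γ δ : Type*} [Enc α] [Enc β] [Enc γ] [Enc δ]

theorem PT.optMap {o : α → Option β} {g : α → β → γ} (ho : PT A o)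
    (hg : PT A (fun p : α × β => g p.1 p.2)) : PT A (fun a => (o a).map (g a)) :=
  (PT.optCase ho (PT.const Option.none) (g := fun a b => Option.some (g a b))
    (PT.some hg)).congr fun a => by rcases o a <;> rfl

theorem PT.optBind {o : α → Option β} {g : α → β → Option γ} (ho : PT A o)
    (hg : PT A (fun p : α × β => g p.1 p.2)) : PT A (fun a => (o a).bind (g a)) :=
  (PT.optCase ho (PT.const Option.none) hg).congr fun a => by rcases o a <;> rfl

theorem PT.filterMapId {l : α → List (Option β)} (hl : PT A l) :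
    PT A (fun a => (l a).filterMap fun o => o) := by
  have h1 : PT A (fun o : Option β => (match o with | none => [] | Option.some b => [b] : List β)) :=
    PT.optCase PT.id (PT.const []) (g := fun _ b => [b]) (PT.cons PT.snd' PT.nil)
  refine (PT.flatMap (f := fun _ o => (match o with | none => [] | Option.some b => [b] : List β))
    hl (h1.comp PT.snd')).congr fun a => ?_
  induction l a with
  | nil => rfl
  | cons x l ih =>
    rw [List.flatMap_cons, ih]
    rcases x with _ | x
    · rfl
    · rfl

theorem PT.filterMap {l : α → List β} {f : α → β → Option γ} (hl : PT A l)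
    (hf : PT A (fun p : α × β => f p.1 p.2)) : PT A (fun a => (l a).filterMap (f a)) := by
  refine (PT.filterMapId (PT.map hl hf)).congr fun a => ?_
  rw [List.filterMap_map]
  rfl

theorem PT.countP {l : α → List β} {f : α → β → Bool} (hl : PT A l)
    (hf : PT A (fun p : α × β => f p.1 p.2)) : PT A (fun a => (l a).countP (f a)) :=
  (PT.filter hl hf).length.congr fun a => by rw [List.countP_eq_length_filter]

theorem PBd.min_left {f g : α → ℕ} (hf : PBd f) : PBd (fun a => min (f a) (g a)) :=
  hf.mono fun _ => min_le_left _ _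

end Lists

/-- The entry which occurs in more than half of the places. -/
def majL {T : Type} [DecidableEq T] (v : List (Option T)) (d : T) : T :=
  ((v.filterMap fun o => o).find? fun t =>
    decide (v.length < 2 * v.countP fun x => decide (x = some t))).getD d

theorem majL_ofFn {T : Type} [DecidableEq T] {K : ℕ} (v : Fin K → Option T) (d : T) :
    majL (List.ofFn v) d = maj v d := by
  unfold majL maj
  rw [List.length_ofFn, List.ofFn_eq_map, List.filterMap_map]
  congr 2
  funext t
  congr 2
  rw [List.countP_map]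
  rfl

theorem PT.majL {A : Set Word} {α β : Type} [Enc α] [Enc β] [EncI β] [DecidableEq β]
    {v : α → List (Option β)} {d : α → β} (hv : PT A v) (hd : PT A d) :
    PT A (fun a => majL (v a) (d a)) := by
  have h1 : PT A (fun p : α × β => (v p.1).countP fun x => decide (x = some p.2)) :=
    PT.countP (f := fun (p : α × β) x => decide (x = some p.2)) (hv.comp PT.fst')
      (PT.decEq PT.snd' (PT.some PT.fst'.snd))
  exact PT.optGetD (PT.find? (PT.filterMapId hv) (f := fun a t =>
    decide ((v a).length < 2 * (v a).countP fun x => decide (x = some t)))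
    (PT.lt (PT.length (hv.comp PT.fst')) (PT.mul (PT.const 2) h1))) hd

/-! ### Blocks as lists -/

namespace LB

variable {T : Type}

/-- `rel` and the lengths of the stacks -/
def shape (b : LB T) : Bool × ℕ × ℕ := (b.1, b.2.1.length, b.2.2.length)

/-- change the bit `rel` and a stack -/
def set (b : LB T) (r : Bool) (σ : Bool) (l : List T) : LB T :=
  bif σ then (r, b.2.1, l) else (r, l, b.2.2)

/-- the default -/
def nil : LB T := (false, [], [])

end LB

section PTblocks

variable {A : Set Word} {β T : Type} [Enc β] [Enc T]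

theorem PT.lbSt {b : β → LB T} {σ : β → Bool} (hb : PT A b) (hσ : PT A σ) :
    PT A (fun x => (b x).st (σ x)) := PT.cond hσ hb.snd.snd hb.snd.fst

theorem PT.lbShape {b : β → LB T} (hb : PT A b) : PT A (fun x => (b x).shape) :=
  hb.fst.pair ((PT.length hb.snd.fst).pair (PT.length hb.snd.snd))

theorem PT.lbSet {b : β → LB T} {r σ : β → Bool} {l : β → List T} (hb : PT A b) (hr : PT A r)
    (hσ : PT A σ) (hl : PT A l) : PT A (fun x => (b x).set (r x) (σ x) (l x)) :=
  PT.cond hσ (hr.pair (hb.snd.fst.pair hl)) (hr.pair (hl.pair hb.snd.snd))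

/-- A property of the two sides. -/
theorem PT.forallBool {f : β → Bool → Bool} (hf : PT A (fun p : β × Bool => f p.1 p.2)) :
    PT A (fun x => f x false && f x true) :=
  (hf.comp (PT.id.pair (PT.const false))).and (hf.comp (PT.id.pair (PT.const true)))

theorem PT.existsBool {f : β → Bool → Bool} (hf : PT A (fun p : β × Bool => f p.1 p.2)) :
    PT A (fun x => f x false || f x true) :=
  (hf.comp (PT.id.pair (PT.const false))).or (hf.comp (PT.id.pair (PT.const true)))

/-! ### The format -/

variable {n sl : β → ℕ}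

theorem PT.chunks {c n : β → ℕ} {w : β → List T} (hc : PT A c) (hn : PT A n) (hnb : PBd n)
    (hw : PT A w) : PT A (fun x => chunks (c x) (n x) (w x)) :=
  PT.map (f := fun x j => ((w x).drop (j * c x)).take (c x)) (PT.range hn hnb)
    (PT.take (PT.drop (hw.comp PT.fst') (PT.mul PT.snd' (hc.comp PT.fst'))) (hc.comp PT.fst'))

theorem PT.rawStk {w : β → Word} (hn : PT A n) (hnb : PBd n) (hs : PT A sl) (hw : PT A w) :
    PT A (fun x => rawStk (n x) (sl x) (w x)) :=
  PT.map (f := fun _ s => List.tail s) (PT.filter (f := fun _ s => List.headD s false)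
    (PT.chunks (PT.add hs (PT.const 1)) hn hnb hw) (PT.headD PT.snd' (PT.const false)))
    (PT.tail PT.snd')

theorem PT.codeStk {l : β → List Word} (hn : PT A n) (hnb : PBd n) (hs : PT A sl) (hsb : PBd sl)
    (hl : PT A l) : PT A (fun x => codeStk (n x) (sl x) (l x)) := by
  have h1 : PT A (fun x => n x * (sl x + 1)) := PT.mul hn (PT.add hs (PT.const 1))
  have h2 : PBd (fun x => n x * (sl x + 1)) := hnb.mul (hsb.add (PBd.const 1))
  exact PT.take (PT.append (PT.flatten (PT.map (f := fun _ s => true :: s) hl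
    (PT.cons (PT.const true) PT.snd'))) (PT.replicate h1 h2 (PT.const false))) h1

theorem PT.codeLB {b : β → LB Word} (hn : PT A n) (hnb : PBd n) (hs : PT A sl) (hsb : PBd sl)
    (hb : PT A b) : PT A (fun x => codeLB (n x) (sl x) (b x)) :=
  PT.cons (PT.const true) (PT.cons hb.fst (PT.append (PT.codeStk hn hnb hs hsb hb.snd.fst)
    (PT.codeStk hn hnb hs hsb hb.snd.snd)))

theorem PT.rawLB {w : β → Word} (hn : PT A n) (hnb : PBd n) (hs : PT A sl) (hw : PT A w) :
    PT A (fun x => rawLB (n x) (sl x) (w x)) :=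
  (PT.getD hw (PT.const 1) (PT.const false)).pair ((PT.rawStk hn hnb hs (PT.drop hw
    (PT.const 2))).pair (PT.rawStk hn hnb hs (PT.drop hw
    (PT.add (PT.const 2) (PT.mul hn (PT.add hs (PT.const 1)))))))

end PTblocks

/-! ### Programs -/

/-- Programs for a family of register systems. -/
structure Prg (α T : Type) where
  own : ℕ
  nb : α → ℕ
  L : α → ℕ
  sl : α → ℕ
  s0 : α → T
  /-- symbols as bits -/
  toB : α → T → Word
  /-- symbols from bits -/
  ofB : α → Word → T
  /-- legal words -/
  ok : α → Word → Bool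
  link : α → ℕ → List (List T) → T
  chk : α → ℕ → List T → Bool
  bchk : α → List (List T) → Bool
  vchk : α → List (List T) → Bool
  dec : α → ℕ → List (Option T) → T
  nxt : α → Bool → List (List T) → List T

/-- The programs are computable in polynomial time. -/
structure Prg.PTs {α T : Type} [Enc α] [Enc T] (A : Set Word) (P : Prg α T) : Prop where
  nb : PT A P.nb
  nb_bd : PBd P.nb
  L : PT A P.L
  L_bd : PBd P.L
  sl : PT A P.sl
  sl_bd : PBd P.sl
  s0 : PT A P.s0
  toB : PT A (fun p : α × T => P.toB p.1 p.2)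
  ofB : PT A (fun p : α × Word => P.ofB p.1 p.2)
  ok : PT A (fun p : α × Word => P.ok p.1 p.2)
  link : PT A (fun p : α × ℕ × List (List T) => P.link p.1 p.2.1 p.2.2)
  chk : PT A (fun p : α × ℕ × List T => P.chk p.1 p.2.1 p.2.2)
  bchk : PT A (fun p : α × List (List T) => P.bchk p.1 p.2)
  vchk : PT A (fun p : α × List (List T) => P.vchk p.1 p.2)
  dec : PT A (fun p : α × ℕ × List (Option T) => P.dec p.1 p.2.1 p.2.2)
  nxt : PT A (fun p : α × Bool × List (List T) => P.nxt p.1 p.2.1 p.2.2)

namespace Prg

variable {α T : Type} (P : Prg α T)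

/-- number of registers -/
def n (a : α) : ℕ := P.nb a + P.L a

/-- the length of the words -/
def m (a : α) : ℕ := blen (P.n a) (P.sl a)

/-- The word of a block. -/
def codeT (a : α) (b : LB T) : Word :=
  codeLB (P.n a) (P.sl a) (b.1, b.2.1.map (P.toB a), b.2.2.map (P.toB a))

/-- The block of a word. -/
def dcT (a : α) (w : Word) : Option (LB T) :=
  let b := rawLB (P.n a) (P.sl a) w
  if codeLB (P.n a) (P.sl a) b = w ∧ (b.2.1.all (P.ok a) = true ∧ b.2.2.all (P.ok a) = true) then
    some (b.1, b.2.1.map (P.ofB a), b.2.2.map (P.ofB a))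
  else none

/-- The default `s0` read at position `j`. -/
def rd (a : α) (l : List T) (j : ℕ) : T := l.getD j (P.s0 a)

/-- the own block -/
def me (v : List (LB T)) : LB T := v.getD P.own LB.nil

/-- local checks and links of the side `σ` -/
def chkσ (a : α) (v : List (LB T)) (σ : Bool) : Bool :=
  (List.range ((P.me v).st σ).length).all fun j => P.chk a j (v.map fun b => P.rd a (b.st σ) j)

variable [DecidableEq T]

/-- links of the side `σ` -/
def linkσ (a : α) (v : List (LB T)) (σ : Bool) : Bool :=
  (List.range ((P.me v).st σ).length).all fun j => decide (j < P.nb a) ||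
    decide (P.rd a ((P.me v).st σ) j = P.link a (j - P.nb a) (v.map fun b => (b.st σ).take j))

/-- tests of a full side -/
def fullσ (a : α) (v : List (LB T)) (σ : Bool) : Bool :=
  !decide (((P.me v).st σ).length = P.n a) ||
    (P.bchk a (v.map fun b => (b.st σ).take (P.nb a)) && (P.vchk a (v.map fun b => b.st σ) &&
      decide (((P.me v).st (!σ)).take (P.nb a) = bif (P.me v).1 then
        P.nxt a σ (v.map fun b => b.st σ) else ((P.me v).st σ).take (P.nb a))))

/-- all tests of a side -/
def sideσ (a : α) (v : List (LB T)) (σ : Bool) : Bool :=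
  (decide (P.nb a ≤ ((P.me v).st σ).length) && decide (((P.me v).st σ).length ≤ P.n a)) &&
    (P.chkσ a v σ && (P.linkσ a v σ && P.fullσ a v σ))

/-- The test of a site, on blocks. -/
def chiT (a : α) (v : List (LB T)) : Bool :=
  v.all (fun b => decide (b.shape = (P.me v).shape)) &&
    ((decide (((P.me v).st false).length = P.n a) || decide (((P.me v).st true).length = P.n a)) &&
      (P.sideσ a v false && P.sideσ a v true))

omit [DecidableEq T] in
/-- One round of decoding, on blocks. -/
def etaT (a : α) (v : List (Option (LB T))) : LB T :=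
  let s := majL (v.map (Option.map LB.shape)) (false, 0, 0)
  (s.1, (List.range (min s.2.1 (P.n a))).map (fun j =>
      P.dec a j (v.map fun o => o.bind fun b => b.2.1[j]?)),
    (List.range (min s.2.2 (P.n a))).map (fun j =>
      P.dec a j (v.map fun o => o.bind fun b => b.2.2[j]?)))

omit [DecidableEq T] in
/-- The dynamics, on blocks. -/
def phiT (a : α) (z : Bool) (v : List (LB T)) : LB T :=
  let b := P.me v
  let g := Bool.xor z b.1
  if ((b.st g).length = P.n a) then
    (if (b.st (!g)).length = P.nb a then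
      b.set (!b.1) (!g) (bif !b.1 then P.nxt a g (v.map fun b => b.st g)
        else (b.st g).take (P.nb a))
    else b.set b.1 (!g) (b.st (!g)).dropLast)
  else b.set b.1 g (b.st g ++ [P.link a ((b.st g).length - P.nb a) (v.map fun b => b.st g)])

/-- The test of a site, on bit strings. -/
def chiW (a : α) (v : List Word) : Bool :=
  v.all (fun w => (P.dcT a w).isSome) && P.chiT a (v.map fun w => (P.dcT a w).getD LB.nil)

omit [DecidableEq T] in
/-- One round of decoding, on bit strings. -/
def etaW (a : α) (v : List (Option Word)) : Word :=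
  P.codeT a (P.etaT a (v.map fun o => o.bind (P.dcT a)))

omit [DecidableEq T] in
/-- The dynamics, on bit strings. -/
def phiW (a : α) (z : Bool) (v : List Word) : Word :=
  P.codeT a (P.phiT a z (v.map fun w => (P.dcT a w).getD LB.nil))

omit [DecidableEq T] in
theorem length_codeT (a : α) (b : LB T) : (P.codeT a b).length = P.m a := length_codeLB _ _ _

omit [DecidableEq T] in
theorem length_etaW (a : α) (v : List (Option Word)) : (P.etaW a v).length = P.m a :=
  P.length_codeT _ _

omit [DecidableEq T] in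
theorem length_phiW (a : α) (z : Bool) (v : List Word) : (P.phiW a z v).length = P.m a :=
  P.length_codeT _ _

end Prg

/-! ### Polynomial time -/

namespace Prg.PTs

variable {A : Set Word} {α T β : Type} [Enc α] [Enc T] [Enc β] {P : Prg α T} (hP : P.PTs A)

include hP

theorem pn {a : β → α} (ha : PT A a) : PT A (fun x => P.n (a x)) :=
  PT.add (hP.nb.comp ha) (hP.L.comp ha)

theorem pnB {a : β → α} (ha : PT A a) : PBd (fun x => P.n (a x)) :=
  (hP.nb_bd.comp ha).add (hP.L_bd.comp ha)

theorem codeT {a : β → α} {b : β → LB T} (ha : PT A a) (hb : PT A b) :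
    PT A (fun x => P.codeT (a x) (b x)) := by
  have h1 : PT A (fun p : β × T => P.toB (a p.1) p.2) :=
    hP.toB.comp ((ha.comp PT.fst').pair PT.snd')
  exact PT.codeLB (hP.pn ha) (hP.pnB ha) (hP.sl.comp ha) (hP.sl_bd.comp ha)
    (hb.fst.pair ((PT.map (f := fun x t => P.toB (a x) t) hb.snd.fst h1).pair
      (PT.map (f := fun x t => P.toB (a x) t) hb.snd.snd h1)))

theorem dcT {a : β → α} {w : β → Word} (ha : PT A a) (hw : PT A w) :
    PT A (fun x => P.dcT (a x) (w x)) := by
  have h1 : PT A (fun p : β × Word => P.ofB (a p.1) p.2) :=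
    hP.ofB.comp ((ha.comp PT.fst').pair PT.snd')
  have h2 : PT A (fun p : β × Word => P.ok (a p.1) p.2) :=
    hP.ok.comp ((ha.comp PT.fst').pair PT.snd')
  have hr : PT A (fun x => rawLB (P.n (a x)) (P.sl (a x)) (w x)) :=
    PT.rawLB (hP.pn ha) (hP.pnB ha) (hP.sl.comp ha) hw
  have hall : ∀ l : β → List Word, PT A l →
      PT A (fun x => decide ((l x).all (P.ok (a x)) = true)) := fun l hl =>
    (PT.all (f := fun x t => P.ok (a x) t) hl h2).congr fun x => by
      rw [Bool.decide_eq_true]
  refine PT.ite (PT.decide_and (PT.decEq (PT.codeLB (hP.pn ha) (hP.pnB ha) (hP.sl.comp ha)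
    (hP.sl_bd.comp ha) hr) hw) (PT.decide_and (hall _ hr.snd.fst) (hall _ hr.snd.snd)))
    (PT.some (hr.fst.pair ((PT.map (f := fun x t => P.ofB (a x) t) hr.snd.fst h1).pair
      (PT.map (f := fun x t => P.ofB (a x) t) hr.snd.snd h1)))) (PT.const none)

theorem rd {a : β → α} {l : β → List T} {j : β → ℕ} (ha : PT A a) (hl : PT A l) (hj : PT A j) :
    PT A (fun x => P.rd (a x) (l x) (j x)) := PT.getD hl hj (hP.s0.comp ha)

omit [Enc α] hP in
theorem me {v : β → List (LB T)} (hv : PT A v) : PT A (fun x => P.me (v x)) :=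
  PT.getD hv (PT.const _) (PT.const _)

theorem chkσ {a : β → α} {v : β → List (LB T)} {σ : β → Bool} (ha : PT A a) (hv : PT A v)
    (hσ : PT A σ) : PT A (fun x => P.chkσ (a x) (v x) (σ x)) := by
  refine PT.all (f := fun (x : β) (j : ℕ) => P.chk (a x) j ((v x).map fun b =>
    P.rd (a x) (b.st (σ x)) j))
    (PT.range (PT.length (PT.lbSt (me hv) hσ)) (PBd.length (PT.lbSt (me hv) hσ))) ?_
  refine hP.chk.comp ((ha.comp PT.fst').pair (PT.snd'.pair ?_))
  exact PT.map (f := fun (p : β × ℕ) b => P.rd (a p.1) (LB.st b (σ p.1)) p.2)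
    (hv.comp PT.fst') (hP.rd (ha.comp PT.fst'.fst) (PT.lbSt PT.snd' (hσ.comp PT.fst'.fst))
      PT.fst'.snd)

variable [DecidableEq T] [EncI T]

theorem linkσ {a : β → α} {v : β → List (LB T)} {σ : β → Bool} (ha : PT A a) (hv : PT A v)
    (hσ : PT A σ) : PT A (fun x => P.linkσ (a x) (v x) (σ x)) := by
  refine PT.all (f := fun x j => decide (j < P.nb (a x)) ||
    decide (P.rd (a x) ((P.me (v x)).st (σ x)) j = P.link (a x) (j - P.nb (a x))
      ((v x).map fun b => (b.st (σ x)).take j)))
    (PT.range (PT.length (PT.lbSt (me hv) hσ)) (PBd.length (PT.lbSt (me hv) hσ))) ?_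
  refine PT.or (PT.lt PT.snd' (hP.nb.comp (ha.comp PT.fst'))) (PT.decEq
    (hP.rd (ha.comp PT.fst') (PT.lbSt (me (hv.comp PT.fst')) (hσ.comp PT.fst')) PT.snd')
    (hP.link.comp ((ha.comp PT.fst').pair ((PT.sub PT.snd' (hP.nb.comp (ha.comp PT.fst'))).pair
      ?_))))
  exact PT.map (f := fun (p : β × ℕ) b => (LB.st b (σ p.1)).take p.2) (hv.comp PT.fst')
    (PT.take (PT.lbSt PT.snd' (hσ.comp PT.fst'.fst)) PT.fst'.snd)

theorem fullσ {a : β → α} {v : β → List (LB T)} {σ : β → Bool} (ha : PT A a) (hv : PT A v)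
    (hσ : PT A σ) : PT A (fun x => P.fullσ (a x) (v x) (σ x)) := by
  have hst : PT A (fun x => (v x).map fun b => LB.st b (σ x)) :=
    PT.map (f := fun x b => LB.st b (σ x)) hv (PT.lbSt PT.snd' (hσ.comp PT.fst'))
  have hst' : PT A (fun x => (v x).map fun b => (LB.st b (σ x)).take (P.nb (a x))) :=
    PT.map (f := fun x b => (LB.st b (σ x)).take (P.nb (a x))) hv
      (PT.take (PT.lbSt PT.snd' (hσ.comp PT.fst')) (hP.nb.comp (ha.comp PT.fst')))
  exact PT.or (PT.not (PT.eqNat (PT.length (PT.lbSt (me hv) hσ)) (hP.pn ha)))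
    (PT.and (hP.bchk.comp (ha.pair hst')) (PT.and (hP.vchk.comp (ha.pair hst))
      (PT.decEq (PT.take (PT.lbSt (me hv) (PT.not hσ)) (hP.nb.comp ha))
        (PT.cond (PT.fst (me hv)) (hP.nxt.comp (ha.pair (hσ.pair hst)))
          (PT.take (PT.lbSt (me hv) hσ) (hP.nb.comp ha))))))

theorem sideσ {a : β → α} {v : β → List (LB T)} {σ : β → Bool} (ha : PT A a) (hv : PT A v)
    (hσ : PT A σ) : PT A (fun x => P.sideσ (a x) (v x) (σ x)) :=
  PT.and (PT.and (PT.le (hP.nb.comp ha) (PT.length (PT.lbSt (me hv) hσ)))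
    (PT.le (PT.length (PT.lbSt (me hv) hσ)) (hP.pn ha)))
    (PT.and (hP.chkσ ha hv hσ) (PT.and (hP.linkσ ha hv hσ) (hP.fullσ ha hv hσ)))

theorem chiT {a : β → α} {v : β → List (LB T)} (ha : PT A a) (hv : PT A v) :
    PT A (fun x => P.chiT (a x) (v x)) := by
  refine PT.and (PT.all (f := fun x b => decide (LB.shape b = (P.me (v x)).shape)) hv
    (PT.decEq (PT.lbShape PT.snd') (PT.lbShape (me (hv.comp PT.fst'))))) (PT.and (PT.or ?_ ?_)
    (PT.and ?_ ?_))
  · exact PT.eqNat (PT.length (PT.lbSt (me hv) (PT.const false))) (hP.pn ha)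
  · exact PT.eqNat (PT.length (PT.lbSt (me hv) (PT.const true))) (hP.pn ha)
  · exact hP.sideσ ha hv (PT.const false)
  · exact hP.sideσ ha hv (PT.const true)

omit [DecidableEq T] [EncI T] in
theorem etaT {a : β → α} {v : β → List (Option (LB T))} (ha : PT A a) (hv : PT A v) :
    PT A (fun x => P.etaT (a x) (v x)) := by
  have hs : PT A (fun x => majL ((v x).map (Option.map LB.shape)) (false, 0, 0)) :=
    PT.majL (PT.map (f := fun _ o => Option.map LB.shape o) hv
      (PT.optMap (g := fun _ b => LB.shape b) PT.snd' (PT.lbShape PT.snd'))) (PT.const _)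
  have hr1 : PT A (fun x => List.range (min (majL ((v x).map (Option.map LB.shape))
      (false, 0, 0)).2.1 (P.n (a x)))) :=
    PT.range (PT.min hs.snd.fst (hP.pn ha)) ((hP.pnB ha).mono fun _ => min_le_right _ _)
  have hr2 : PT A (fun x => List.range (min (majL ((v x).map (Option.map LB.shape))
      (false, 0, 0)).2.2 (P.n (a x)))) :=
    PT.range (PT.min hs.snd.snd (hP.pn ha)) ((hP.pnB ha).mono fun _ => min_le_right _ _)
  refine hs.fst.pair (PT.pair (PT.map (f := fun x j => P.dec (a x) j ((v x).map fun o =>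
    o.bind fun b => b.2.1[j]?)) hr1 ?_) (PT.map (f := fun x j => P.dec (a x) j ((v x).map fun o =>
    o.bind fun b => b.2.2[j]?)) hr2 ?_))
  · refine hP.dec.comp ((ha.comp PT.fst').pair (PT.snd'.pair ?_))
    refine PT.map (f := fun (p : β × ℕ) (o : Option (LB T)) => o.bind fun b => b.2.1[p.2]?)
      (hv.comp PT.fst') ?_
    exact PT.optBind (g := fun (q : (β × ℕ) × Option (LB T)) (b : LB T) => b.2.1[q.1.2]?) PT.snd'
      (PT.getElem? PT.snd'.snd.fst PT.fst'.fst.snd)
  · refine hP.dec.comp ((ha.comp PT.fst').pair (PT.snd'.pair ?_))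
    refine PT.map (f := fun (p : β × ℕ) (o : Option (LB T)) => o.bind fun b => b.2.2[p.2]?)
      (hv.comp PT.fst') ?_
    exact PT.optBind (g := fun (q : (β × ℕ) × Option (LB T)) (b : LB T) => b.2.2[q.1.2]?) PT.snd'
      (PT.getElem? PT.snd'.snd.snd PT.fst'.fst.snd)

omit [DecidableEq T] [EncI T] in
theorem phiT {a : β → α} {z : β → Bool} {v : β → List (LB T)} (ha : PT A a) (hz : PT A z)
    (hv : PT A v) : PT A (fun x => P.phiT (a x) (z x) (v x)) := by
  have hb : PT A (fun x => P.me (v x)) := me hv
  have hg : PT A (fun x => Bool.xor (z x) (P.me (v x)).1) := PT.xor hz hb.fst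
  have hst : PT A (fun x => (v x).map fun b => LB.st b (Bool.xor (z x) (P.me (v x)).1)) :=
    PT.map (f := fun x b => LB.st b (Bool.xor (z x) (P.me (v x)).1)) hv
      (PT.lbSt PT.snd' (hg.comp PT.fst'))
  have hown : PT A (fun x => (P.me (v x)).st (Bool.xor (z x) (P.me (v x)).1)) := PT.lbSt hb hg
  have hoth : PT A (fun x => (P.me (v x)).st (!(Bool.xor (z x) (P.me (v x)).1))) :=
    PT.lbSt hb hg.not
  refine PT.ite (PT.eqNat (PT.length hown) (hP.pn ha)) (PT.ite
    (PT.eqNat (PT.length hoth) (hP.nb.comp ha)) ?_ ?_) ?_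
  · exact PT.lbSet hb hb.fst.not hg.not (PT.cond hb.fst.not (hP.nxt.comp (ha.pair (hg.pair hst)))
      (PT.take hown (hP.nb.comp ha)))
  · exact PT.lbSet hb hb.fst hg.not (PT.dropLast hoth)
  · exact PT.lbSet hb hb.fst hg (PT.append hown (PT.cons (hP.link.comp (ha.pair
      ((PT.sub (PT.length hown) (hP.nb.comp ha)).pair hst))) PT.nil))

theorem chiW {a : β → α} {v : β → List Word} (ha : PT A a) (hv : PT A v) :
    PT A (fun x => P.chiW (a x) (v x)) := by
  have hd : PT A (fun p : β × Word => P.dcT (a p.1) p.2) := hP.dcT (ha.comp PT.fst') PT.snd'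
  exact PT.and (PT.all (f := fun x w => (P.dcT (a x) w).isSome) hv (PT.isSome hd))
    (hP.chiT ha (PT.map (f := fun x w => (P.dcT (a x) w).getD LB.nil) hv
      (PT.optGetD hd (PT.const _))))

omit [DecidableEq T] [EncI T] in
theorem etaW {a : β → α} {v : β → List (Option Word)} (ha : PT A a) (hv : PT A v) :
    PT A (fun x => P.etaW (a x) (v x)) :=
  hP.codeT ha (hP.etaT ha (PT.map (f := fun x (o : Option Word) => o.bind (P.dcT (a x))) hv
    (PT.optBind (g := fun (p : β × Option Word) w => P.dcT (a p.1) w) PT.snd'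
      (hP.dcT (ha.comp PT.fst'.fst) PT.snd'))))

omit [DecidableEq T] [EncI T] in
theorem phiW {a : β → α} {z : β → Bool} {v : β → List Word} (ha : PT A a) (hz : PT A z)
    (hv : PT A v) : PT A (fun x => P.phiW (a x) (z x) (v x)) := by
  have hd : PT A (fun p : β × Word => P.dcT (a p.1) p.2) := hP.dcT (ha.comp PT.fst') PT.snd'
  exact hP.codeT ha (hP.phiT ha hz (PT.map (f := fun x w => (P.dcT (a x) w).getD LB.nil) hv
      (PT.optGetD hd (PT.const _))))

end Prg.PTs

end Vale.Agent.P330.W.H912
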