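import Vale.Agent.P330.W.H912.Main
import Vale.Agent.P330.H475.SFam

/-!
# The block system on words of any sufficient length, in the form of `SFam`

`Prg.sysW P Y c pub m`: the block system with blocks `Wd m = Fin m → Bool`, for every `m` that is at
least the length `blen n sl` of the code words (the code words are padded with zeros); missing
blocks of `eta` are zero words. `bfacts_sysW`: the facts. `exists_site`: its site functions are the
values of functions `List Word → Word` in polynomial time of the public block and the `K` blocks.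
-/

namespace Vale.Agent.P330.W.H912

open Vale.Agent.Lib.PolyTime Function H797
open H475 (Wd wd toWd wd0)

/-! ### Padding -/

/-- The word of length `m` with the letters of `w`. -/
def padTo (m : ℕ) (w : Word) : Word := (w ++ List.replicate m false).take m

/-- The first `M` letters, if the other letters are `false`. -/
def unpad (M : ℕ) (w : Word) : Option Word :=
  if (w.drop M).all (fun b => !b) = true then some (w.take M) else none

theorem length_padTo (m : ℕ) (w : Word) : (padTo m w).length = m := by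
  unfold padTo
  rw [List.length_take, List.length_append, List.length_replicate]
  omega

theorem padTo_eq {m : ℕ} {w : Word} (h : w.length ≤ m) :
    padTo m w = w ++ List.replicate (m - w.length) false := by
  unfold padTo
  rw [List.take_append, List.take_of_length_le h, List.take_replicate]
  congr 2
  exact min_eq_left (Nat.sub_le _ _)

theorem unpad_padTo {m : ℕ} {w : Word} (h : w.length ≤ m) : unpad w.length (padTo m w) = some w := by
  unfold unpad
  rw [padTo_eq h, List.drop_left, List.take_left, if_pos]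
  rw [List.all_eq_true]
  intro b hb
  rw [List.eq_of_mem_replicate hb]
  rfl

theorem padTo_unpad {M m : ℕ} {w u : Word} (hm : w.length = m) (h : unpad M w = some u) :
    padTo m u = w := by
  unfold unpad at h
  split_ifs at h with h1
  have h2 : w.take M = u := Option.some.inj h
  have h3 : w.drop M = List.replicate (m - M) false := by
    rw [List.eq_replicate_iff]
    refine ⟨by rw [List.length_drop, hm], fun b hb => ?_⟩
    have := List.all_eq_true.1 h1 b hb
    simpa using this
  have h4 : u.length = min M m := by rw [← h2, List.length_take, hm]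
  rw [padTo_eq (by omega), h4]
  conv_rhs => rw [← List.take_append_drop M w, h2, h3]
  congr 2
  omega

theorem wd_toWd (m : ℕ) (w : Word) : wd (toWd m w) = padTo m w := by
  unfold wd toWd padTo
  refine List.ext_getElem (by
    rw [List.length_ofFn, List.length_take, List.length_append, List.length_replicate]
    omega) fun i h1 h2 => ?_
  rw [List.getElem_ofFn, List.getElem_take, List.getElem_append]
  split_ifs with h3
  · exact List.getD_eq_getElem _ _ h3
  · rw [List.getElem_replicate]
    exact List.getD_eq_default _ _ (Nat.le_of_not_lt h3)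

theorem toWd_wd {m : ℕ} (w : Wd m) : toWd m (wd w) = w := by
  funext i
  show (List.ofFn w).getD i false = w i
  rw [List.getD_eq_getElem _ _ (by rw [List.length_ofFn]; exact i.2), List.getElem_ofFn]

theorem length_wd {m : ℕ} (w : Wd m) : (wd w).length = m := List.length_ofFn

theorem wd_injective {m : ℕ} : Injective (wd : Wd m → Word) := fun a b h => by
  rw [← toWd_wd a, h, toWd_wd]

theorem toWd_padTo (m : ℕ) (w : Word) : toWd m (padTo m w) = toWd m w := by
  rw [← wd_toWd, toWd_wd]

theorem wd_wd0 (m : ℕ) : wd (wd0 m) = List.replicate m false := by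
  unfold wd wd0
  rw [List.ofFn_const]

/-! ### The code -/

variable {S : Type} {sl : ℕ}

/-- The code of blocks by words of length `m`. -/
def SCode.bcP (c : SCode S sl) (n m : ℕ) : BCode (Blk S) (Wd m) where
  code b := toWd m (codeLB n sl (c.lb b))
  dc w := (unpad (blen n sl) (wd w)).bind (c.dcB n)
  d := ⟨false, fun _ => []⟩
  code_dc w b h := by
    rw [Option.bind_eq_some_iff] at h
    obtain ⟨u, hu, hb⟩ := h
    apply wd_injective
    rw [wd_toWd, (c.dcB_some hb).1]
    exact padTo_unpad (length_wd w) hu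

theorem SCode.bcP_dc_code (c : SCode S sl) {n m : ℕ} (hm : blen n sl ≤ m) {b : Blk S}
    (h : ∀ σ, (b.st σ).length ≤ n) : (c.bcP n m).dc ((c.bcP n m).code b) = some b := by
  show (unpad (blen n sl) (wd (toWd m (codeLB n sl (c.lb b))))).bind (c.dcB n) = some b
  have h1 := length_codeLB n sl (c.lb b)
  rw [wd_toWd, ← h1, unpad_padTo (by rw [h1]; exact hm), Option.bind_some]
  exact c.dcB_code h

theorem SCode.bcP_dc_zero (c : SCode S sl) (n m : ℕ) : (c.bcP n m).dc (wd0 m) = none := by
  show (unpad (blen n sl) (wd (wd0 m))).bind (c.dcB n) = none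
  rw [wd_wd0]
  unfold unpad
  split_ifs
  · rw [Option.bind_some, List.take_replicate]
    apply c.dcB_zero
    cases min (blen n sl) m <;> rfl
  · rfl

/-! ### Site functions -/

namespace Prg

variable {α T : Type} (P : Prg α T)

/-- The block of a padded word. -/
def dcP (a : α) (w : Word) : Option (LB T) := (unpad (P.m a) w).bind (P.dcT a)

/-- The test of a site. -/
def chiP [DecidableEq T] (a : α) (v : List Word) : Bool :=
  v.all (fun w => (P.dcP a w).isSome) && P.chiT a (v.map fun w => (P.dcP a w).getD LB.nil)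

/-- One round of decoding; words that do not decode are missing. -/
def etaP (a : α) (v : List Word) : Word := P.codeT a (P.etaT a (v.map (P.dcP a)))

/-- The dynamics. -/
def phiP (a : α) (z : Bool) (v : List Word) : Word :=
  P.codeT a (P.phiT a z (v.map fun w => (P.dcP a w).getD LB.nil))

/-- The block system on words of length `m`. -/
def sysW [DecidableEq T] {Om X : Type} {K : ℕ} (Y : Sys Om S X K) (c : SCode S sl) (pub : Om → α)
    (m : ℕ) : BSys Y.Cf Om (Wd m) K :=
  { trSys Y.bsys (c.bcP (Y.nb + Y.L) m) with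
    chi := fun h v => P.chiP (pub h) (List.ofFn fun i => wd (v i)) = true
    eta := fun h v => toWd m (P.etaP (pub h) (List.ofFn fun i => wd ((v i).getD (wd0 m))))
    phi := fun z h v => toWd m (P.phiP (pub h) z (List.ofFn fun i => wd (v i))) }

end Prg

namespace Prg.PTs

variable {A : Set Word} {α T β : Type} [Enc α] [Enc T] [Enc β] {P : Prg α T} (hP : P.PTs A)

theorem _root_.Vale.Agent.P330.W.H912.PT.padTo {A : Set Word} {β : Type} [Enc β] {m : β → ℕ}
    {w : β → Word} (hm : PT A m) (hmb : PBd m) (hw : PT A w) :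
    PT A (fun x => padTo (m x) (w x)) :=
  PT.take (PT.append hw (PT.replicate hm hmb (PT.const false))) hm

theorem _root_.Vale.Agent.P330.W.H912.PT.unpad {A : Set Word} {β : Type} [Enc β] {M : β → ℕ}
    {w : β → Word} (hM : PT A M) (hw : PT A w) : PT A (fun x => unpad (M x) (w x)) := by
  refine PT.ite ?_ (PT.some (PT.take hw hM)) (PT.const none)
  exact (PT.all (f := fun _ b => !b) (PT.drop hw hM) (PT.not PT.snd')).congr fun x => by
    rw [Bool.decide_eq_true]

include hP

theorem m {a : β → α} (ha : PT A a) : PT A (fun x => P.m (a x)) :=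
  PT.add (PT.const 2) (PT.mul (PT.const 2) (PT.mul (hP.pn ha) (PT.add (hP.sl.comp ha)
    (PT.const 1))))

theorem m_bd {a : β → α} (ha : PT A a) : PBd (fun x => P.m (a x)) :=
  (PBd.const 2).add ((PBd.const 2).mul ((hP.pnB ha).mul ((hP.sl_bd.comp ha).add (PBd.const 1))))

theorem dcP {a : β → α} {w : β → Word} (ha : PT A a) (hw : PT A w) :
    PT A (fun x => P.dcP (a x) (w x)) :=
  PT.optBind (g := fun x u => P.dcT (a x) u) (PT.unpad (hP.m ha) hw)
    (hP.dcT (ha.comp PT.fst') PT.snd')

theorem chiP [DecidableEq T] [EncI T] {a : β → α} {v : β → List Word} (ha : PT A a)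
    (hv : PT A v) : PT A (fun x => P.chiP (a x) (v x)) := by
  have hd : PT A (fun p : β × Word => P.dcP (a p.1) p.2) := hP.dcP (ha.comp PT.fst') PT.snd'
  exact PT.and (PT.all (f := fun x w => (P.dcP (a x) w).isSome) hv (PT.isSome hd))
    (hP.chiT ha (PT.map (f := fun x w => (P.dcP (a x) w).getD LB.nil) hv
      (PT.optGetD hd (PT.const _))))

theorem etaP {a : β → α} {v : β → List Word} (ha : PT A a) (hv : PT A v) :
    PT A (fun x => P.etaP (a x) (v x)) :=
  hP.codeT ha (hP.etaT ha (PT.map (f := fun x w => P.dcP (a x) w) hv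
    (hP.dcP (ha.comp PT.fst') PT.snd')))

theorem phiP {a : β → α} {z : β → Bool} {v : β → List Word} (ha : PT A a) (hz : PT A z)
    (hv : PT A v) : PT A (fun x => P.phiP (a x) (z x) (v x)) := by
  have hd : PT A (fun p : β × Word => P.dcP (a p.1) p.2) := hP.dcP (ha.comp PT.fst') PT.snd'
  exact hP.codeT ha (hP.phiT ha hz (PT.map (f := fun x w => (P.dcP (a x) w).getD LB.nil) hv
      (PT.optGetD hd (PT.const _))))

/-- **The site functions as functions of lists of words.** The first word is the public word
`pubW M a` (any `M`). -/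
theorem exists_site [DecidableEq T] [EncI T] :
    ∃ (fchi feta : List Word → Word) (fphi : Bool → List Word → Word),
      PT A fchi ∧ PT A feta ∧ (∀ z, PT A (fphi z)) ∧
      (∀ M a v, fchi (pubW M a :: v) = [P.chiP a v]) ∧
      (∀ M a v, feta (pubW M a :: v) = P.etaP a v) ∧
      ∀ z M a v, fphi z (pubW M a :: v) = P.phiP a z v := by
  obtain ⟨f1, h1, h1'⟩ := exists_lift_list (A := A) (f := fun p : α × List (List Bool) =>
    [P.chiP p.1 p.2]) (PT.cons (hP.chiP PT.fst' PT.snd') PT.nil)
  obtain ⟨f2, h2, h2'⟩ := exists_lift_list (A := A) (f := fun p : α × List (List Bool) =>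
    P.etaP p.1 p.2) (hP.etaP PT.fst' PT.snd')
  have h3 : ∀ z, ∃ F : List (List Bool) → List Bool, PT A F ∧
      ∀ M a bs, F (pubW M a :: bs) = P.phiP a z bs := fun z =>
    exists_lift_list (A := A) (f := fun p : α × List (List Bool) => P.phiP p.1 z p.2)
      (hP.phiP PT.fst' (PT.const z) PT.snd')
  choose f3 h3 h3' using h3
  exact ⟨f1, f2, f3, h1, h2, h3, h1', h2', h3'⟩

end Prg.PTs

/-! ### The facts -/

namespace Rep

variable {Om X α T : Type} {K : ℕ} {P : Prg α T} {Y : Sys Om S X K} {c : SCode S sl}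
  {pub : Om → α} {rp : S → T} (R : Rep P Y c pub rp) {m : ℕ}

include R

theorem dcP_eq (h : Om) (w : Wd m) :
    P.dcP (pub h) (wd w) = ((c.bcP (Y.nb + Y.L) m).dc w).map (toLB rp) := by
  show (unpad (P.m (pub h)) (wd w)).bind (P.dcT (pub h)) =
    ((unpad (blen (Y.nb + Y.L) sl) (wd w)).bind (c.dcB (Y.nb + Y.L))).map (toLB rp)
  rw [R.m_eq]
  rcases unpad (blen (Y.nb + Y.L) sl) (wd w) with _ | u
  · rfl
  · rw [Option.bind_some, Option.bind_some, R.dcT_eq]

theorem map_dcP (h : Om) {v : Fin K → Wd m} {u : Fin K → Blk S}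
    (hu : ∀ i, (c.bcP (Y.nb + Y.L) m).dc (v i) = some (u i)) :
    ((List.ofFn fun i => wd (v i)).map fun w => (P.dcP (pub h) w).getD LB.nil) =
      List.ofFn fun i => toLB rp (u i) := by
  rw [List.map_ofFn]
  congr 1
  funext i
  simp only [comp_apply]
  rw [R.dcP_eq, hu i]
  rfl

theorem chiP_iff [DecidableEq T] (h : Om) (v : Fin K → Wd m) :
    (trSys Y.bsys (c.bcP (Y.nb + Y.L) m)).chi h v ↔
      P.chiP (pub h) (List.ofFn fun i => wd (v i)) = true := by
  show (∃ u : Fin K → Blk S, (∀ i, (c.bcP (Y.nb + Y.L) m).dc (v i) = some (u i)) ∧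
    Y.chi h u) ↔ _
  unfold Prg.chiP
  rw [Bool.and_eq_true, List.all_eq_true]
  have e1 : (∀ w ∈ List.ofFn fun i => wd (v i), (P.dcP (pub h) w).isSome = true) ↔
      ∀ i, ((c.bcP (Y.nb + Y.L) m).dc (v i)).isSome = true := by
    constructor
    · intro h1 i
      have := h1 _ (by rw [List.mem_ofFn]; exact ⟨i, rfl⟩)
      rwa [R.dcP_eq, Option.isSome_map] at this
    · intro h1 w hw
      rw [List.mem_ofFn] at hw
      obtain ⟨i, rfl⟩ := hw
      rw [R.dcP_eq, Option.isSome_map]
      exact h1 i
  rw [e1]
  constructor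
  · rintro ⟨u, hu, hc⟩
    refine ⟨fun i => by rw [hu i]; rfl, ?_⟩
    rw [R.map_dcP h hu, R.chiT_iff]
    exact hc
  · rintro ⟨h1, h2⟩
    choose u hu using fun i => Option.isSome_iff_exists.1 (h1 i)
    rw [R.map_dcP h hu, R.chiT_iff] at h2
    exact ⟨u, hu, h2⟩

theorem etaP_eq (h : Om) (v : Fin K → Option (Wd m)) :
    toWd m (P.etaP (pub h) (List.ofFn fun i => wd ((v i).getD (wd0 m)))) =
      (trSys Y.bsys (c.bcP (Y.nb + Y.L) m)).eta h v := by
  show _ = toWd m (codeLB (Y.nb + Y.L) sl (c.lb (Y.eta h fun i =>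
    (v i).bind (c.bcP (Y.nb + Y.L) m).dc)))
  rw [← R.codeT_toLB h, ← R.etaT_eq h _ ?_]
  · unfold Prg.etaP
    congr 3
    rw [List.map_ofFn]
    congr 1
    funext i
    simp only [comp_apply]
    rw [R.dcP_eq]
    rcases v i with _ | w
    · rw [Option.getD_none, c.bcP_dc_zero]
      rfl
    · rfl
  · intro i b hb σ
    rcases hvi : v i with _ | w
    · rw [hvi] at hb; simp at hb
    · rw [hvi, Option.bind_some] at hb
      change (unpad _ _).bind _ = some b at hb
      rw [Option.bind_eq_some_iff] at hb
      obtain ⟨u, -, hu⟩ := hb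
      exact (c.dcB_some hu).2.2 σ

theorem phiP_eq (hm : blen (Y.nb + Y.L) sl ≤ m) (h : Om) (z : Bool) (w : Y.Cf) :
    toWd m (P.phiP (pub h) z (List.ofFn fun i =>
      wd ((trSys Y.bsys (c.bcP (Y.nb + Y.L) m)).word w (Y.wr i h)))) =
      (c.bcP (Y.nb + Y.L) m).code (Y.bsys.phi z h fun i => Y.bsys.word w (Y.wr i h)) := by
  show _ = toWd m (codeLB (Y.nb + Y.L) sl (c.lb (Y.phi z h fun i => Y.bsys.word w (Y.wr i h))))
  rw [← R.codeT_toLB h, ← R.phiT_eq h z _ (fun σ i => by rw [st_length, st_length]) fun σ => by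
    rw [st_length]
    have := w.2 σ
    omega]
  unfold Prg.phiP
  rw [R.map_dcP h (u := fun i => Y.bsys.word w (Y.wr i h)) fun i => ?_]
  exact c.bcP_dc_code hm fun σ => Sys_word_length Y w _ σ

end Rep

/-- **The facts of the block system on words of length `m`.** -/
theorem bfacts_sysW {Om X α T : Type} {K : ℕ} [Fintype Om] [DecidableEq T] {P : Prg α T}
    {Y : Sys Om S X K} {c : SCode S sl} {pub : Om → α} {rp : S → T} (R : Rep P Y c pub rp) {m : ℕ}
    (hm : blen (Y.nb + Y.L) sl ≤ m) {κ : ℝ → ℝ} {θ ρ₁ c₀ : ℝ} (F : BFacts Y.bsys κ θ ρ₁ c₀) :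
    BFacts (P.sysW Y c pub m) κ θ ρ₁ c₀ :=
  bfacts_congr (trFacts F fun w h => c.bcP_dc_code hm (Sys_word_length Y w h)) R.chiP_iff
    R.etaP_eq fun z w hw h => (R.phiP_eq hm h z w).trans (congrArg _ (F.phi_word z w hw h))

end Vale.Agent.P330.W.H912
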